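import Mathlib.LinearAlgebra.Matrix.NonsingularInverse
import Mathlib.LinearAlgebra.Matrix.ToLin
import Mathlib.Algebra.MvPolynomial.Funext
import Mathlib.Combinatorics.Nullstellensatz
import Mathlib.Analysis.Complex.Basic

/-! Adding `k` boxes to one row of a highest weight vector (Pieri), explicit form. -/

set_option autoImplicit false

namespace Vale.Agent.P181.Z.H503P

open Finset

section Mod

variable {M : Type*} [AddCommGroup M] [Module ℂ M]

/-- The coefficients `G_l` (downward recursion). -/
noncomputable def GG (E : ℕ → ℕ → M →ₗ[ℂ] M) (c : ℕ → ℂ) (i : ℕ) (l : ℕ) : M →ₗ[ℂ] M :=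
  if l < i then -(c l)⁻¹ • ∑ m ∈ (Finset.Ioc l i).attach, E m.1 l ∘ₗ GG E c i m.1
  else LinearMap.id
termination_by i - l
decreasing_by
  have := Finset.mem_Ioc.1 m.2
  omega

/-- The relations of `gl_h`. -/
def GlRel (h : ℕ) (E : ℕ → ℕ → M →ₗ[ℂ] M) : Prop :=
  ∀ a b c d, a < h → b < h → c < h → d < h → ∀ x, E a b (E c d x) =
    E c d (E a b x) + (if b = c then E a d x else 0) - (if d = a then E c b x else 0)

/-- Highest weight vectors of weight `θ`. -/
def HW (h : ℕ) (E : ℕ → ℕ → M →ₗ[ℂ] M) (θ : ℕ → ℂ) : Submodule ℂ M where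
  carrier := {x | (∀ a b, a < b → b < h → E a b x = 0) ∧ ∀ a, a < h → E a a x = θ a • x}
  add_mem' := by
    rintro x y ⟨hx, hx'⟩ ⟨hy, hy'⟩
    refine ⟨fun a b h1 h2 => ?_, fun a h1 => ?_⟩
    · rw [map_add, hx a b h1 h2, hy a b h1 h2, add_zero]
    · rw [map_add, hx' a h1, hy' a h1, smul_add]
  zero_mem' := ⟨fun a b _ _ => map_zero _, fun a _ => by rw [map_zero, smul_zero]⟩
  smul_mem' := by
    rintro c x ⟨hx, hx'⟩
    refine ⟨fun a b h1 h2 => ?_, fun a h1 => ?_⟩
    · rw [map_smul, hx a b h1 h2, smul_zero]
    · rw [map_smul, hx' a h1, smul_comm]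

variable {E : ℕ → ℕ → M →ₗ[ℂ] M} {c θ : ℕ → ℂ} {h i : ℕ} {x : M}

lemma GG_self : GG E c i i = LinearMap.id := by
  rw [GG, if_neg (lt_irrefl i)]

lemma GG_lt {l : ℕ} (hl : l < i) (x : M) :
    GG E c i l x = -((c l)⁻¹ • ∑ m ∈ Finset.Ioc l i, E m l (GG E c i m x)) := by
  rw [GG, if_pos hl, LinearMap.smul_apply, neg_smul, LinearMap.sum_apply]
  congr 2
  exact Finset.sum_attach (Finset.Ioc l i) (fun m => E m l (GG E c i m x))

lemma GG_sum {l : ℕ} (hl : l < i) (hc : c l ≠ 0) (x : M) :
    ∑ m ∈ Finset.Ioc l i, E m l (GG E c i m x) = -(c l • GG E c i l x) := by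
  rw [GG_lt hl, smul_neg, neg_neg, smul_smul, mul_inv_cancel₀ hc, one_smul]

lemma G_wt (hE : GlRel h E) (hi : i < h) (hx : x ∈ HW h E θ) : ∀ d l, l + d = i → ∀ a, a < h →
    E a a (GG E c i l x) =
      (θ a + (if a = i then 1 else 0) - (if a = l then 1 else 0)) • GG E c i l x := by
  intro d
  induction d using Nat.strong_induction_on with
  | _ d ih =>
    intro l hl a ha
    rcases Nat.eq_zero_or_pos d with h0 | h0
    · have : l = i := by omega
      subst this
      rw [GG_self, LinearMap.id_apply, hx.2 a ha, add_sub_cancel_right]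
    · have hli : l < i := by omega
      have key : ∑ m ∈ Finset.Ioc l i, E a a (E m l (GG E c i m x)) =
          (θ a + (if a = i then 1 else 0) - (if a = l then 1 else 0)) •
            ∑ m ∈ Finset.Ioc l i, E m l (GG E c i m x) := by
        rw [Finset.smul_sum]
        refine Finset.sum_congr rfl (fun m hm => ?_)
        obtain ⟨h1, h2⟩ := Finset.mem_Ioc.1 hm
        rw [hE a a m l ha ha (by omega) (by omega), ih (i - m) (by omega) m (by omega) a ha,
          map_smul]
        have e1 : (if a = m then E a l (GG E c i m x) else 0) =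
            (if a = m then (1 : ℂ) else 0) • E m l (GG E c i m x) := by
          split_ifs with h
          · rw [h, one_smul]
          · rw [zero_smul]
        have e2 : (if l = a then E m a (GG E c i m x) else 0) =
            (if a = l then (1 : ℂ) else 0) • E m l (GG E c i m x) := by
          by_cases h : a = l
          · rw [if_pos h.symm, if_pos h, h, one_smul]
          · rw [if_neg (fun hh => h hh.symm), if_neg h, zero_smul]
        rw [e1, e2, ← add_smul, ← sub_smul]
        congr 1
        ring
      rw [GG_lt hli, map_neg, map_smul, map_sum, key, smul_neg, smul_comm]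

lemma G_raise (hE : GlRel h E) (hi : i < h) (hx : x ∈ HW h E θ)
    (hc : ∀ l, l < i → c l = θ l - θ i + ((i : ℂ) - l - 1)) (hc0 : ∀ l, l < i → c l ≠ 0) :
    ∀ d l, l + d = i → ∀ r, r + 1 < h →
    E r (r + 1) (GG E c i l x) = if r = l ∧ l < i then -GG E c i (l + 1) x else 0 := by
  intro d
  induction d using Nat.strong_induction_on with
  | _ d ih =>
    intro l hl r hr
    rcases Nat.eq_zero_or_pos d with h0 | h0
    · have : l = i := by omega
      subst this
      rw [GG_self, LinearMap.id_apply, hx.1 r (r + 1) (Nat.lt_succ_self r) hr,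
        if_neg (fun hh => lt_irrefl _ hh.2)]
    · have hli : l < i := by omega
      have key : ∑ m ∈ Finset.Ioc l i, E r (r + 1) (E m l (GG E c i m x)) =
          if r = l ∧ l < i then c l • GG E c i (l + 1) x else 0 := by
        have e0 : ∀ m ∈ Finset.Ioc l i, E r (r + 1) (E m l (GG E c i m x)) =
            E m l (if r = m ∧ m < i then -GG E c i (m + 1) x else 0) +
              (if r + 1 = m then E r l (GG E c i m x) else 0) -
              (if l = r then E m (r + 1) (GG E c i m x) else 0) := by
          intro m hm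
          obtain ⟨h1, h2⟩ := Finset.mem_Ioc.1 hm
          rw [hE r (r + 1) m l (by omega) hr (by omega) (by omega),
            ih (i - m) (by omega) m (by omega) r hr]
        rw [Finset.sum_congr rfl e0, Finset.sum_sub_distrib, Finset.sum_add_distrib]
        rcases lt_trichotomy r l with hrl | hrl | hrl
        · rw [if_neg (by omega)]
          have a1 : ∑ m ∈ Finset.Ioc l i,
              E m l (if r = m ∧ m < i then -GG E c i (m + 1) x else 0) = 0 := by
            refine Finset.sum_eq_zero (fun m hm => ?_)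
            obtain ⟨h1, h2⟩ := Finset.mem_Ioc.1 hm
            rw [if_neg (by omega), map_zero]
          have a2 : ∑ m ∈ Finset.Ioc l i, (if r + 1 = m then E r l (GG E c i m x) else 0) = 0 := by
            refine Finset.sum_eq_zero (fun m hm => ?_)
            obtain ⟨h1, h2⟩ := Finset.mem_Ioc.1 hm
            rw [if_neg (by omega)]
          have a3 : ∑ m ∈ Finset.Ioc l i,
              (if l = r then E m (r + 1) (GG E c i m x) else 0) = 0 := by
            refine Finset.sum_eq_zero (fun m hm => ?_)
            rw [if_neg (by omega)]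
          rw [a1, a2, a3]
          simp
        · subst hrl
          rw [if_pos ⟨rfl, hli⟩]
          have a1 : ∑ m ∈ Finset.Ioc r i,
              E m r (if r = m ∧ m < i then -GG E c i (m + 1) x else 0) = 0 := by
            refine Finset.sum_eq_zero (fun m hm => ?_)
            obtain ⟨h1, h2⟩ := Finset.mem_Ioc.1 hm
            rw [if_neg (by omega), map_zero]
          have a2 : ∑ m ∈ Finset.Ioc r i, (if r + 1 = m then E r r (GG E c i m x) else 0) =
              θ r • GG E c i (r + 1) x := by
            rw [Finset.sum_ite_eq, if_pos (Finset.mem_Ioc.2 ⟨by omega, by omega⟩),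
              G_wt hE hi hx (i - (r + 1)) (r + 1) (by omega) r (by omega),
              if_neg (by omega), if_neg (by omega), add_zero, sub_zero]
          have a3 : ∑ m ∈ Finset.Ioc r i,
              (if r = r then E m (r + 1) (GG E c i m x) else 0) =
              (θ r - c r) • GG E c i (r + 1) x := by
            simp only [if_true]
            have hI : Finset.Ioc r i = insert (r + 1) (Finset.Ioc (r + 1) i) := by
              ext m
              simp only [Finset.mem_Ioc, Finset.mem_insert]
              omega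
            rw [hI, Finset.sum_insert (by simp), G_wt hE hi hx (i - (r + 1)) (r + 1) (by omega)
              (r + 1) (by omega), if_pos rfl]
            by_cases hri : r + 1 < i
            · rw [GG_sum hri (hc0 _ hri), if_neg (by omega), hc _ hri, hc _ hli, ← neg_smul,
                ← add_smul]
              congr 1
              push_cast
              ring
            · have hri' : r + 1 = i := by omega
              rw [if_pos hri', hri', Finset.Ioc_self, Finset.sum_empty, add_zero, hc _ hli]
              congr 1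
              have : (i : ℂ) = r + 1 := by
                rw [← hri']
                push_cast
                ring
              rw [this]
              ring
          rw [a1, a2, a3, zero_add, ← sub_smul]
          congr 1
          ring
        · rw [if_neg (by omega)]
          have a3 : ∑ m ∈ Finset.Ioc l i,
              (if l = r then E m (r + 1) (GG E c i m x) else 0) = 0 := by
            refine Finset.sum_eq_zero (fun m hm => ?_)
            rw [if_neg (by omega)]
          rw [a3, sub_zero]
          by_cases hri : r < i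
          · have a1 : ∑ m ∈ Finset.Ioc l i,
                E m l (if r = m ∧ m < i then -GG E c i (m + 1) x else 0) =
                -(E r l (GG E c i (r + 1) x)) := by
              rw [Finset.sum_eq_single r]
              · rw [if_pos ⟨rfl, hri⟩, map_neg]
              · intro m hm hmr
                rw [if_neg (fun hh => hmr hh.1.symm), map_zero]
              · intro hh
                exact absurd (Finset.mem_Ioc.2 ⟨hrl, hri.le⟩) hh
            have a2 : ∑ m ∈ Finset.Ioc l i, (if r + 1 = m then E r l (GG E c i m x) else 0) =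
                E r l (GG E c i (r + 1) x) := by
              rw [Finset.sum_ite_eq, if_pos (Finset.mem_Ioc.2 ⟨by omega, by omega⟩)]
            rw [a1, a2]
            simp
          · have a1 : ∑ m ∈ Finset.Ioc l i,
                E m l (if r = m ∧ m < i then -GG E c i (m + 1) x else 0) = 0 := by
              refine Finset.sum_eq_zero (fun m hm => ?_)
              rw [if_neg (by omega), map_zero]
            have a2 : ∑ m ∈ Finset.Ioc l i,
                (if r + 1 = m then E r l (GG E c i m x) else 0) = 0 := by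
              refine Finset.sum_eq_zero (fun m hm => ?_)
              obtain ⟨h1, h2⟩ := Finset.mem_Ioc.1 hm
              rw [if_neg (by omega)]
            rw [a1, a2, add_zero]
      rw [GG_lt hli, map_neg, map_smul, map_sum, key]
      by_cases hr' : r = l ∧ l < i
      · rw [if_pos hr', if_pos hr', smul_smul, inv_mul_cancel₀ (hc0 _ hli), one_smul]
      · rw [if_neg hr', if_neg hr', smul_zero, neg_zero]

lemma HW_of_simple (hE : GlRel h E) {x : M} (h1 : ∀ r, r + 1 < h → E r (r + 1) x = 0)
    (h2 : ∀ a, a < h → E a a x = θ a • x) : x ∈ HW h E θ := by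
  refine ⟨?_, h2⟩
  have key : ∀ d a b, a + d + 1 = b → b < h → E a b x = 0 := by
    intro d
    induction d with
    | zero =>
      intro a b hab hb
      have : b = a + 1 := by omega
      subst this
      exact h1 a hb
    | succ d ih =>
      intro a b hab hb
      have h3 := hE a (b - 1) (b - 1) b (by omega) (by omega) (by omega) hb x
      have h4 : b - 1 + 1 = b := by omega
      have h5 : E (b - 1) b x = 0 := by
        have := h1 (b - 1) (by omega)
        rwa [h4] at this
      rw [h5, ih a (b - 1) (by omega) (by omega), map_zero, map_zero, if_pos rfl,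
        if_neg (by omega)] at h3
      rw [zero_add, sub_zero] at h3
      exact h3.symm
  intro a b hab hb
  exact key (b - a - 1) a b (by omega) hb

end Mod

section Ring

open MvPolynomial

variable {A : Type*} [CommRing A] [Algebra ℂ A]

/-- One box. -/
noncomputable def T1 (E : ℕ → ℕ → A →ₗ[ℂ] A) (c : ℕ → ℂ) (i : ℕ) (y : ℕ → A) : A →ₗ[ℂ] A :=
  ∑ l ∈ Finset.range (i + 1), (LinearMap.mulRight ℂ (y l)) ∘ₗ GG E c i l

lemma T1_apply (E : ℕ → ℕ → A →ₗ[ℂ] A) (c : ℕ → ℂ) (i : ℕ) (y : ℕ → A) (x : A) :
    T1 E c i y x = ∑ l ∈ Finset.range (i + 1), GG E c i l x * y l := by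
  rw [T1, LinearMap.sum_apply]
  exact Finset.sum_congr rfl (fun l _ => rfl)

/-- `y_0, .., y_i` transform like a vector, with an additional character `d`. -/
structure YVec (h i : ℕ) (E : ℕ → ℕ → A →ₗ[ℂ] A) (d : ℕ → ℂ) (y : ℕ → A) : Prop where
  raise : ∀ r, r + 1 < h → ∀ j, j ≤ i → E r (r + 1) (y j) = if r + 1 = j then y r else 0
  wt : ∀ a, a < h → ∀ j, j ≤ i → E a a (y j) = ((if a = j then 1 else 0) + d a) • y j

variable {E : ℕ → ℕ → A →ₗ[ℂ] A} {c θ d : ℕ → ℂ} {h i : ℕ} {x : A}

lemma T1_HW (hE : GlRel h E) (hLeib : ∀ a b x y, E a b (x * y) = E a b x * y + x * E a b y)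
    (hi : i < h) (hx : x ∈ HW h E θ) {y : ℕ → A} (hy : YVec h i E d y)
    (hc : ∀ l, l < i → c l = θ l - θ i + ((i : ℂ) - l - 1)) (hc0 : ∀ l, l < i → c l ≠ 0) :
    T1 E c i y x ∈ HW h E (fun a => θ a + ((if a = i then 1 else 0) + d a)) := by
  refine HW_of_simple hE (fun r hr => ?_) (fun a ha => ?_)
  · rw [T1_apply, map_sum]
    have e1 : ∀ l ∈ Finset.range (i + 1), E r (r + 1) (GG E c i l x * y l) =
        (if r = l then (if r < i then -(GG E c i (r + 1) x * y r) else 0) else 0) +
        (if r + 1 = l then GG E c i (r + 1) x * y r else 0) := by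
      intro l hl
      have hl' : l ≤ i := by
        have := Finset.mem_range.1 hl
        omega
      rw [hLeib, G_raise hE hi hx hc hc0 (i - l) l (by omega) r hr, hy.raise r hr l hl']
      by_cases h1 : r = l
      · subst h1
        by_cases h2 : r < i
        · rw [if_pos ⟨rfl, h2⟩, if_pos rfl, if_pos h2, if_neg (by omega), if_neg (by omega)]
          ring
        · rw [if_neg (fun hh => h2 hh.2), if_pos rfl, if_neg h2, if_neg (by omega),
            if_neg (by omega)]
          ring
      · rw [if_neg (fun hh => h1 hh.1), if_neg h1]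
        by_cases h3 : r + 1 = l
        · rw [if_pos h3, if_pos h3, h3]
          ring
        · rw [if_neg h3, if_neg h3]
          ring
    rw [Finset.sum_congr rfl e1, Finset.sum_add_distrib, Finset.sum_ite_eq, Finset.sum_ite_eq]
    by_cases h2 : r < i
    · rw [if_pos (Finset.mem_range.2 (by omega)), if_pos h2,
        if_pos (Finset.mem_range.2 (by omega))]
      ring
    · rw [if_neg h2, if_neg (show ¬ (r + 1 ∈ Finset.range (i + 1)) by
        rw [Finset.mem_range]; omega)]
      simp
  · rw [T1_apply, map_sum, Finset.smul_sum]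
    refine Finset.sum_congr rfl (fun l hl => ?_)
    have hl' : l ≤ i := by
      have := Finset.mem_range.1 hl
      omega
    rw [hLeib, G_wt hE hi hx (i - l) l (by omega) a ha, hy.wt a ha l hl', smul_mul_assoc,
      mul_smul_comm, ← add_smul]
    congr 1
    ring

/-- The constants at step `s`. -/
noncomputable def cc (θ d : ℕ → ℂ) (i s l : ℕ) : ℂ :=
  (θ l + s * d l) - (θ i + s * (1 + d i)) + ((i : ℂ) - l - 1)

/-- `s` boxes. -/
noncomputable def TT (E : ℕ → ℕ → A →ₗ[ℂ] A) (θ d : ℕ → ℂ) (i : ℕ) (y : ℕ → A) :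
    ℕ → A →ₗ[ℂ] A
  | 0 => LinearMap.id
  | s + 1 => T1 E (cc θ d i s) i y ∘ₗ TT E θ d i y s

lemma TT_HW (hE : GlRel h E) (hLeib : ∀ a b x y, E a b (x * y) = E a b x * y + x * E a b y)
    (hi : i < h) (hx : x ∈ HW h E θ) {y : ℕ → A} (hy : YVec h i E d y) :
    ∀ k, (∀ s, s < k → ∀ l, l < i → cc θ d i s l ≠ 0) →
    TT E θ d i y k x ∈ HW h E (fun a => θ a + k * ((if a = i then 1 else 0) + d a)) := by
  intro k
  induction k with
  | zero =>
    intro _
    have e : (fun a => θ a + ((0 : ℕ) : ℂ) * ((if a = i then 1 else 0) + d a)) = θ := by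
      funext a
      push_cast
      ring
    rw [e]
    exact hx
  | succ k ih =>
    intro hc
    have h1 := ih (fun s hs => hc s (by omega))
    have h2 := T1_HW (c := cc θ d i k) hE hLeib hi h1 hy (fun l hl => ?_)
      (fun l hl => hc k (Nat.lt_succ_self k) l hl)
    · rw [TT, LinearMap.comp_apply]
      convert h2 using 2
      funext a
      push_cast
      ring
    · have : l ≠ i := ne_of_lt hl
      rw [cc, if_neg this, if_pos rfl]
      ring

lemma phi_T1 (φ : A →ₐ[ℂ] ℂ) {y : ℕ → A} (h0 : ∀ l, l < i → φ (y l) = 0) (h1 : φ (y i) = 1)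
    (c : ℕ → ℂ) (x : A) : φ (T1 E c i y x) = φ x := by
  rw [T1_apply, map_sum, Finset.sum_range_succ, Finset.sum_eq_zero, zero_add, map_mul, h1,
    GG_self, LinearMap.id_apply, mul_one]
  intro l hl
  rw [map_mul, h0 l (Finset.mem_range.1 hl), mul_zero]

lemma phi_TT (φ : A →ₐ[ℂ] ℂ) {y : ℕ → A} (h0 : ∀ l, l < i → φ (y l) = 0) (h1 : φ (y i) = 1)
    (x : A) : ∀ k, φ (TT E θ d i y k x) = φ x := by
  intro k
  induction k with
  | zero => rfl
  | succ k ih => rw [TT, LinearMap.comp_apply, phi_T1 φ h0 h1, ih]

/-- The vector `∑ C_r l^(r)`. -/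
noncomputable def yC (i : ℕ) (L : Fin (i + 1) → ℕ → A) (C : Fin (i + 1) → ℂ) (l : ℕ) : A :=
  ∑ r, C r • L r l

lemma yC_YVec {L : Fin (i + 1) → ℕ → A} (hL : ∀ r, YVec h i E d (L r)) (C : Fin (i + 1) → ℂ) :
    YVec h i E d (yC i L C) := by
  refine ⟨fun r hr j hj => ?_, fun a ha j hj => ?_⟩
  · rw [yC, map_sum]
    split_ifs with h1
    · rw [yC]
      refine Finset.sum_congr rfl (fun t _ => ?_)
      rw [map_smul, (hL t).raise r hr j hj, if_pos h1]
    · refine Finset.sum_eq_zero (fun t _ => ?_)
      rw [map_smul, (hL t).raise r hr j hj, if_neg h1, smul_zero]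
  · rw [yC, map_sum, Finset.smul_sum]
    refine Finset.sum_congr rfl (fun t _ => ?_)
    rw [map_smul, (hL t).wt a ha j hj, smul_comm]

lemma T1_yC (c : ℕ → ℂ) (L : Fin (i + 1) → ℕ → A) (C : Fin (i + 1) → ℂ) (x : A) :
    T1 E c i (yC i L C) x = ∑ r, C r • T1 E c i (L r) x := by
  simp only [T1_apply, yC, Finset.mul_sum, Finset.smul_sum, mul_smul_comm]
  rw [Finset.sum_comm]

lemma poly_TT (L : Fin (i + 1) → ℕ → A) (x : A) : ∀ (k : ℕ) (ψ : A →ₗ[ℂ] ℂ),
    ∃ p : MvPolynomial (Fin (i + 1)) ℂ, (∀ r, p.degreeOf r ≤ k) ∧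
      ∀ C, eval C p = ψ (TT E θ d i (yC i L C) k x) := by
  intro k
  induction k with
  | zero =>
    intro ψ
    exact ⟨MvPolynomial.C (ψ x), fun r => by rw [degreeOf_C], fun C => by rw [eval_C]; rfl⟩
  | succ k ih =>
    intro ψ
    choose p hp hp' using fun r : Fin (i + 1) => ih (ψ ∘ₗ T1 E (cc θ d i k) i (L r))
    refine ⟨∑ r, X r * p r, fun r => ?_, fun C => ?_⟩
    · refine (degreeOf_sum_le r Finset.univ _).trans (Finset.sup_le (fun t _ => ?_))
      refine (degreeOf_mul_le r _ _).trans ?_
      have h1 : degreeOf r (X t : MvPolynomial (Fin (i + 1)) ℂ) ≤ 1 := by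
        rw [degreeOf_X]
        split_ifs <;> omega
      have h2 := hp t r
      omega
    · rw [map_sum, TT, LinearMap.comp_apply, T1_yC, map_sum]
      refine Finset.sum_congr rfl (fun r _ => ?_)
      rw [map_mul, eval_X, hp' r C, map_smul, smul_eq_mul]
      rfl

/-- The grid family has trivial common kernel. -/
theorem grid_inj [IsDomain A] (hsep : ∀ a : A, a ≠ 0 → ∃ φ : A →ₐ[ℂ] ℂ, φ a ≠ 0)
    {L : Fin (i + 1) → ℕ → A}
    (hdet : Matrix.det (Matrix.of (fun r j : Fin (i + 1) => L r (j : ℕ))) ≠ 0) (k : ℕ) (x : A)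
    (h0 : ∀ C : Fin (i + 1) → Fin (k + 1),
      TT E θ d i (yC i L (fun r => ((C r : ℕ) : ℂ))) k x = 0) : x = 0 := by
  by_contra hx
  obtain ⟨φ, hφ⟩ := hsep (x * Matrix.det (Matrix.of (fun r j : Fin (i + 1) => L r (j : ℕ))))
    (mul_ne_zero hx hdet)
  rw [map_mul] at hφ
  have hφx : φ x ≠ 0 := left_ne_zero_of_mul hφ
  have hφd := right_ne_zero_of_mul hφ
  rw [AlgHom.map_det] at hφd
  set N : Matrix (Fin (i + 1)) (Fin (i + 1)) ℂ :=
    φ.mapMatrix (Matrix.of (fun r j : Fin (i + 1) => L r (j : ℕ))) with hN
  have hNu : IsUnit N.det := isUnit_iff_ne_zero.2 hφd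
  let C0 : Fin (i + 1) → ℂ := Matrix.vecMul (Pi.single (Fin.last i) 1) N⁻¹
  have hC0 : Matrix.vecMul C0 N = Pi.single (Fin.last i) 1 := by
    simp only [C0]
    rw [Matrix.vecMul_vecMul, Matrix.nonsing_inv_mul _ hNu, Matrix.vecMul_one]
  have hval : ∀ j : Fin (i + 1), φ (yC i L C0 j) = if j = Fin.last i then 1 else 0 := by
    intro j
    have h1 := congrFun hC0 j
    rw [Matrix.vecMul, dotProduct] at h1
    rw [yC, map_sum]
    have h2 : ∀ r, φ (C0 r • L r (j : ℕ)) = C0 r * N r j := by
      intro r
      rw [map_smul, smul_eq_mul]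
      rfl
    rw [Finset.sum_congr rfl (fun r _ => h2 r), h1, Pi.single_apply]
  obtain ⟨p, hp, hp'⟩ := poly_TT (E := E) (θ := θ) (d := d) L x k φ.toLinearMap
  have hp0 : p = 0 := by
    refine MvPolynomial.eq_zero_of_eval_zero_at_prod_finset p
      (fun _ => (Finset.range (k + 1)).map ⟨fun n : ℕ => (n : ℂ), Nat.cast_injective⟩)
      (fun r => ?_) (fun C hC => ?_)
    · rw [Finset.card_map, Finset.card_range]
      have := hp r
      omega
    · have hC' : ∀ r, ∃ n : Fin (k + 1), ((n : ℕ) : ℂ) = C r := by
        intro r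
        obtain ⟨n, hn, hn'⟩ := Finset.mem_map.1 (hC r)
        exact ⟨⟨n, Finset.mem_range.1 hn⟩, hn'⟩
      choose D hD using hC'
      have e : C = fun r => ((D r : ℕ) : ℂ) := funext fun r => (hD r).symm
      rw [hp', e, h0 D, map_zero]
  have h1 := hp' C0
  rw [hp0, map_zero] at h1
  have h2 : φ (TT E θ d i (yC i L C0) k x) = φ x := by
    apply phi_TT φ
    · intro l hl
      have := hval ⟨l, by omega⟩
      rw [if_neg (fun hh => by
        have := congrArg Fin.val hh
        simp at this
        omega)] at this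
      exact this
    · have := hval (Fin.last i)
      rw [if_pos rfl] at this
      exact this
  apply hφx
  rw [← h2]
  exact h1.symm

/-- Everything stays in a family of stable subspaces. -/
lemma TT_mem (P : ℕ → Submodule ℂ A) (hP : ∀ s, ∀ x ∈ P s, ∀ a b, E a b x ∈ P s) {y : ℕ → A}
    (hPy : ∀ s, ∀ x ∈ P s, ∀ l, l ≤ i → x * y l ∈ P (s + 1)) {x : A} (hx : x ∈ P 0) :
    ∀ k, TT E θ d i y k x ∈ P k := by
  have hG : ∀ (c : ℕ → ℂ) (s : ℕ) (x : A), x ∈ P s → ∀ e l, l + e = i → GG E c i l x ∈ P s := by
    intro c s x hx e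
    induction e using Nat.strong_induction_on with
    | _ e ih =>
      intro l hl
      by_cases hli : l < i
      · rw [GG_lt hli]
        refine Submodule.neg_mem _ (Submodule.smul_mem _ _ (Submodule.sum_mem _ (fun m hm => ?_)))
        obtain ⟨h1, h2⟩ := Finset.mem_Ioc.1 hm
        exact hP s _ (ih (i - m) (by omega) m (by omega)) m l
      · have : l = i := by omega
        rw [this, GG_self]
        exact hx
  intro k
  induction k with
  | zero => exact hx
  | succ k ih =>
    rw [TT, LinearMap.comp_apply, T1_apply]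
    refine Submodule.sum_mem _ (fun l hl => ?_)
    have := Finset.mem_range.1 hl
    exact hPy k _ (hG _ k _ ih (i - l) l (by omega)) l (by omega)

end Ring

end Vale.Agent.P181.Z.H503P
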