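import Vale.Agent.P181.Z.H592.Real
import Vale.Agent.P181.Z.H503.Pieri

/-! The Pieri step in the polynomial ring in the letters. -/

set_option autoImplicit false

namespace Vale.Agent.P181.Z.H503S

open MvPolynomial Vale.Agent.P181 Vale.Agent.P181.H280 Vale.Agent.P181.H530.Torus
  Vale.Agent.P181.T4 Vale.Agent.P181.FR Vale.Agent.P181.Z.H592 Vale.Agent.P181.Z.H503P

variable {n N : ℕ}

/-- degree `N` in letters of total `a` -/
noncomputable def DA (n N a : ℕ) : Submodule ℂ (A n) where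
  carrier := {f | ∀ d : (Fin n → ℕ) →₀ ℕ, coeff d f ≠ 0 → (Finsupp.toMultiset d).card = N ∧
    ∀ v ∈ Finsupp.toMultiset d, ∑ i, v i = a}
  zero_mem' := fun d hd => absurd (coeff_zero d) hd
  add_mem' := by
    intro f g hf hg d hd
    rw [coeff_add] at hd
    by_cases h : coeff d f = 0
    · rw [h, zero_add] at hd
      exact hg d hd
    · exact hf d h
  smul_mem' := by
    intro c f hf d hd
    rw [coeff_smul, smul_eq_mul] at hd
    exact hf d (right_ne_zero_of_mul hd)

lemma mem_DA {a : ℕ} {f : A n} : f ∈ DA n N a ↔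
    ∀ d : (Fin n → ℕ) →₀ ℕ, coeff d f ≠ 0 → (Finsupp.toMultiset d).card = N ∧
    ∀ v ∈ Finsupp.toMultiset d, ∑ i, v i = a := Iff.rfl

lemma WA_le_DA {a : ℕ} {mu : Fin n → ℕ} : WA n N a mu ≤ DA n N a :=
  fun _ hf d hd => ⟨(hf d hd).1, (hf d hd).2.1⟩

lemma monomial_mem_DA {a : ℕ} {d : (Fin n → ℕ) →₀ ℕ} (hd : (Finsupp.toMultiset d).card = N ∧
    ∀ v ∈ Finsupp.toMultiset d, ∑ i, v i = a) (c : ℂ) : (monomial d c : A n) ∈ DA n N a := by
  intro d' hd'
  rw [coeff_monomial] at hd'
  have h : d = d' := by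
    by_contra h
    rw [if_neg h] at hd'
    exact hd' rfl
  rw [← h]
  exact hd

lemma E_monomial (s i : Fin n) (d : (Fin n → ℕ) →₀ ℕ) (c : ℂ) :
    E s i (monomial d c) = c • ∑ v ∈ d.support,
      monomial (d - Finsupp.single v 1 + Finsupp.single (mvL s i v) 1) ((d v : ℂ) * (v i : ℂ)) := by
  rw [E, mkDerivation_monomial, Finsupp.sum]
  congr 1
  refine Finset.sum_congr rfl (fun v _ => ?_)
  rw [smul_eq_mul, mul_smul_comm, X, monomial_mul, mul_one, smul_monomial, smul_eq_mul, mul_comm]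

lemma toMultiset_move {d : (Fin n → ℕ) →₀ ℕ} {v w : Fin n → ℕ} (hv : v ∈ d.support) :
    Finsupp.toMultiset (d - Finsupp.single v 1 + Finsupp.single w 1) =
      (Finsupp.toMultiset d).erase v + {w} := by
  classical
  have h1 : d = (d - Finsupp.single v 1) + Finsupp.single v 1 := by
    rw [tsub_add_cancel_of_le]
    rw [Finsupp.single_le_iff, Nat.succ_le_iff, pos_iff_ne_zero, ← Finsupp.mem_support_iff]
    exact hv
  have h2 : Finsupp.toMultiset d = Finsupp.toMultiset (d - Finsupp.single v 1) + {v} := by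
    conv_lhs => rw [h1]
    rw [map_add, Finsupp.toMultiset_single, one_nsmul]
  rw [map_add, Finsupp.toMultiset_single, one_nsmul, h2]
  congr 1
  rw [Multiset.add_comm, Multiset.singleton_add, Multiset.erase_cons_head]

lemma E_mem_DA {a : ℕ} (s i : Fin n) {f : A n} (hf : f ∈ DA n N a) : E s i f ∈ DA n N a := by
  classical
  rw [← support_sum_monomial_coeff f, map_sum]
  refine Submodule.sum_mem _ (fun d hd => ?_)
  rw [E_monomial]
  refine Submodule.smul_mem _ _ (Submodule.sum_mem _ (fun v hv => ?_))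
  obtain ⟨h1, h2⟩ := hf d (mem_support_iff.1 hd)
  by_cases hvi : v i = 0
  · rw [hvi, Nat.cast_zero, mul_zero, monomial_zero]
    exact Submodule.zero_mem _
  · apply monomial_mem_DA
    rw [toMultiset_move hv]
    have hvm : v ∈ Finsupp.toMultiset d := (Finsupp.mem_toMultiset d v).2 hv
    refine ⟨?_, fun w hw => ?_⟩
    · rw [Multiset.card_add, Multiset.card_erase_of_mem hvm, Multiset.card_singleton, h1]
      have h5 : 0 < (Finsupp.toMultiset d).card := Multiset.card_pos_iff_exists_mem.2 ⟨v, hvm⟩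
      rw [h1] at h5
      rw [Nat.pred_eq_sub_one]
      omega
    · rcases Multiset.mem_add.1 hw with h | h
      · exact h2 w (Multiset.mem_of_mem_erase h)
      · rw [Multiset.mem_singleton] at h
        rw [h, ← h2 v hvm]
        have h3 : ∀ k, mvL s i v k + (if k = i then 1 else 0) =
            v k + (if k = s then 1 else 0) := by
          intro k
          rw [mvL_apply]
          by_cases hki : k = i
          · subst hki
            rw [if_pos rfl]
            have : 0 < v k := Nat.pos_of_ne_zero hvi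
            omega
          · rw [if_neg hki]
            omega
        have h4 : ∑ k, (mvL s i v k + (if k = i then 1 else 0)) =
            ∑ k, (v k + (if k = s then 1 else 0)) := Finset.sum_congr rfl (fun k _ => h3 k)
        rw [Finset.sum_add_distrib, Finset.sum_add_distrib, Finset.sum_ite_eq',
          Finset.sum_ite_eq', if_pos (Finset.mem_univ _), if_pos (Finset.mem_univ _)] at h4
        omega

lemma mul_mem_DA {a B : ℕ} {f g : A n} (hf : f ∈ DA n N a) (hg : g ∈ DA n B a) :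
    f * g ∈ DA n (N + B) a := by
  classical
  intro d hd
  rw [coeff_mul] at hd
  obtain ⟨x, hx, hx0⟩ := Finset.exists_ne_zero_of_sum_ne_zero hd
  have h1 := Finset.HasAntidiagonal.mem_antidiagonal.1 hx
  obtain ⟨h2, h3⟩ := hf x.1 (left_ne_zero_of_mul hx0)
  obtain ⟨h5, h6⟩ := hg x.2 (right_ne_zero_of_mul hx0)
  rw [← h1, map_add]
  refine ⟨by rw [Multiset.card_add, h2, h5], fun v hv => ?_⟩
  rcases Multiset.mem_add.1 hv with h | h
  · exact h3 v h
  · exact h6 v h

lemma mvL_self (i : Fin n) (v : Fin n → ℕ) : mvL i i v = v := by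
  funext k
  rw [mvL_apply]
  omega

/-- The torus acts on monomials by the weight. -/
lemma E_self_monomial (i : Fin n) (d : (Fin n → ℕ) →₀ ℕ) (c : ℂ) :
    E i i (monomial d c) = ((((Finsupp.toMultiset d).sum i : ℕ)) : ℂ) • monomial d c := by
  classical
  have h1 : ((Finsupp.toMultiset d).sum i : ℕ) = ∑ v ∈ d.support, d v * v i := by
    rw [Finsupp.toMultiset_apply, Finsupp.sum, Multiset.sum_sum]
    rw [Finset.sum_apply]
    refine Finset.sum_congr rfl (fun v _ => ?_)
    rw [Multiset.sum_nsmul, Multiset.sum_singleton, Pi.smul_apply, smul_eq_mul]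
  rw [E_monomial, h1]
  push_cast
  rw [Finset.sum_smul, Finset.smul_sum]
  refine Finset.sum_congr rfl (fun v hv => ?_)
  rw [mvL_self, tsub_add_cancel_of_le, smul_monomial, smul_monomial, smul_eq_mul, smul_eq_mul]
  · congr 1
    ring
  · rw [Finsupp.single_le_iff, Nat.succ_le_iff, pos_iff_ne_zero, ← Finsupp.mem_support_iff]
    exact hv

lemma coeff_E_self (i : Fin n) (f : A n) (d : (Fin n → ℕ) →₀ ℕ) :
    coeff d (E i i f) = ((((Finsupp.toMultiset d).sum i : ℕ)) : ℂ) * coeff d f := by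
  classical
  conv_lhs => rw [← support_sum_monomial_coeff f, map_sum, coeff_sum]
  have h1 : ∀ d' ∈ f.support, coeff d (E i i (monomial d' (coeff d' f))) =
      if d' = d then ((((Finsupp.toMultiset d).sum i : ℕ)) : ℂ) * coeff d f else 0 := by
    intro d' _
    rw [E_self_monomial, coeff_smul, coeff_monomial, smul_eq_mul]
    by_cases h : d' = d
    · rw [if_pos h, if_pos h, h]
    · rw [if_neg h, if_neg h, mul_zero]
  rw [Finset.sum_congr rfl h1, Finset.sum_ite_eq']
  by_cases h : d ∈ f.support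
  · rw [if_pos h]
  · rw [if_neg h, notMem_support_iff.1 h, mul_zero]

lemma E_self_WA {a : ℕ} {mu : Fin n → ℕ} {f : A n} (hf : f ∈ WA n N a mu) (i : Fin n) :
    E i i f = (mu i : ℂ) • f := by
  ext d
  rw [coeff_E_self, coeff_smul, smul_eq_mul]
  by_cases h : coeff d f = 0
  · rw [h, mul_zero, mul_zero]
  · rw [(hf d h).2.2]

lemma mem_WA_of {a : ℕ} {mu : Fin n → ℕ} {f : A n} (hf : f ∈ DA n N a)
    (h : ∀ i, E i i f = (mu i : ℂ) • f) : f ∈ WA n N a mu := by
  intro d hd
  refine ⟨(hf d hd).1, (hf d hd).2, funext fun i => ?_⟩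
  have h1 := congrArg (coeff d) (h i)
  rw [coeff_E_self, coeff_smul, smul_eq_mul] at h1
  exact_mod_cast mul_right_cancel₀ hd h1

/-- The operators with natural numbers as indices. -/
noncomputable def EN (n a b : ℕ) : A n →ₗ[ℂ] A n :=
  if h : a < n ∧ b < n then (E ⟨a, h.1⟩ ⟨b, h.2⟩ : A n →ₗ[ℂ] A n) else 0

lemma EN_of {a b : ℕ} (ha : a < n) (hb : b < n) (x : A n) :
    EN n a b x = E ⟨a, ha⟩ ⟨b, hb⟩ x := by
  rw [EN, dif_pos ⟨ha, hb⟩]
  rfl

lemma EN_leib (a b : ℕ) (x y : A n) : EN n a b (x * y) = EN n a b x * y + x * EN n a b y := by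
  by_cases h : a < n ∧ b < n
  · rw [EN_of h.1 h.2, EN_of h.1 h.2, EN_of h.1 h.2, Derivation.leibniz, smul_eq_mul, smul_eq_mul]
    ring
  · rw [EN, dif_neg h]
    simp

lemma EN_rel : GlRel n (EN n) := by
  intro a b c d ha hb hc hd x
  rw [EN_of ha hb, EN_of hc hd, EN_of hc hd, EN_of ha hb]
  have h := congrArg (fun D : Derivation ℂ (A n) (A n) => D x)
    (E_comm (⟨a, ha⟩ : Fin n) ⟨b, hb⟩ ⟨c, hc⟩ ⟨d, hd⟩)
  simp only [Derivation.commutator_apply, Derivation.sub_apply] at h
  have e1 : (if (⟨b, hb⟩ : Fin n) = ⟨c, hc⟩ then E (⟨a, ha⟩ : Fin n) ⟨d, hd⟩ else 0) x =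
      (if b = c then EN n a d x else 0) := by
    by_cases h : b = c
    · rw [if_pos (Fin.ext h), if_pos h, EN_of ha hd]
    · rw [if_neg (fun hh => h (congrArg Fin.val hh)), if_neg h]
      rfl
  have e2 : (if (⟨d, hd⟩ : Fin n) = ⟨a, ha⟩ then E (⟨c, hc⟩ : Fin n) ⟨b, hb⟩ else 0) x =
      (if d = a then EN n c b x else 0) := by
    by_cases h : d = a
    · rw [if_pos (Fin.ext h), if_pos h, EN_of hc hb]
    · rw [if_neg (fun hh => h (congrArg Fin.val hh)), if_neg h]
      rfl
  rw [e1, e2] at h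
  linear_combination h

lemma EN_rel' : GlRel (n - 1) (fun a b => EN n (a + 1) (b + 1)) := by
  intro a b c d ha hb hc hd x
  have h := EN_rel (n := n) (a + 1) (b + 1) (c + 1) (d + 1) (by omega) (by omega) (by omega)
    (by omega) x
  simp only [Nat.add_right_cancel_iff] at h
  exact h

/-- An operator which commutes with the lowering operators acts on `TT` by its values. -/
lemma TT_op {R : Type*} [CommRing R] [Algebra ℂ R] {E' : ℕ → ℕ → R →ₗ[ℂ] R} {θ d : ℕ → ℂ} {i : ℕ}
    {y : ℕ → R} (D : R →ₗ[ℂ] R) (hD : ∀ x y, D (x * y) = D x * y + x * D y)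
    (hcomm : ∀ m l, l < m → m ≤ i → ∀ x, D (E' m l x) = E' m l (D x))
    {δ τ : ℂ} (hy : ∀ l, l ≤ i → D (y l) = δ • y l) {x : R} (hx : D x = τ • x) (k : ℕ) :
    D (TT E' θ d i y k x) = (τ + k * δ) • TT E' θ d i y k x := by
  have hG : ∀ (c : ℕ → ℂ) (x : R) (e l : ℕ), l + e = i → D (GG E' c i l x) = GG E' c i l (D x) := by
    intro c x e
    induction e using Nat.strong_induction_on with
    | _ e ih =>
      intro l hl
      by_cases hli : l < i
      · rw [GG_lt hli, GG_lt hli, map_neg, map_smul, map_sum]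
        congr 2
        refine Finset.sum_congr rfl (fun m hm => ?_)
        obtain ⟨h1, h2⟩ := Finset.mem_Ioc.1 hm
        rw [hcomm m l h1 h2, ih (i - m) (by omega) m (by omega)]
      · have : l = i := by omega
        rw [this, GG_self]
        rfl
  induction k with
  | zero =>
    rw [TT, LinearMap.id_apply, hx]
    congr 1
    push_cast
    ring
  | succ k ih =>
    rw [TT, LinearMap.comp_apply, T1_apply, map_sum, Finset.smul_sum]
    refine Finset.sum_congr rfl (fun l hl => ?_)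
    have := Finset.mem_range.1 hl
    rw [hD, hG _ _ (i - l) l (by omega), ih, map_smul, hy l (by omega), smul_mul_assoc,
      mul_smul_comm, ← add_smul]
    congr 1
    push_cast
    ring

/-- Covariants on the rows `1, .., m` of `ℂ^n`. -/
structure Cov (n m B a : ℕ) (ν : Fin n → ℕ) (cov : Fin m → Fin m → A n) : Prop where
  hm : m + 1 ≤ n
  raise : ∀ (p q : Fin n) (hpq : p < q) (r l : Fin m), E p q (cov r l) =
    if h : (q : ℕ) = l + 1 ∧ 1 ≤ (p : ℕ) then
      cov r ⟨(p : ℕ) - 1, by have := l.2; have := Fin.lt_def.1 hpq; omega⟩ else 0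
  wt : ∀ (r j : Fin m), cov r j ∈
    WA n B a (fun i => ν i + if (i : ℕ) = j + 1 then 1 else 0)
  const : ∀ i j : Fin n, 1 ≤ (i : ℕ) → (i : ℕ) ≤ m → 1 ≤ (j : ℕ) → (j : ℕ) ≤ m → ν i = ν j
  det : Matrix.det (Matrix.of cov) ≠ 0

lemma A_sep (f : A n) (hf : f ≠ 0) : ∃ φ : A n →ₐ[ℂ] ℂ, φ f ≠ 0 := by
  by_contra h
  push Not at h
  apply hf
  apply MvPolynomial.funext
  intro x
  have h1 := h (aeval x)
  rw [map_zero]
  exact h1

/-- `TT` for the rows `1, .., i + 1`. -/
theorem s1_mem {m B a k : ℕ} {ν θ : Fin n → ℕ} {cov : Fin (m + 1) → Fin (m + 1) → A n}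
    (hC : Cov n (m + 1) B a ν cov)
    (hθ : ∀ l : Fin n, 1 ≤ (l : ℕ) → (l : ℕ) < m + 1 → ∀ i : Fin n, (i : ℕ) = m + 1 →
      θ i + k ≤ θ l)
    (I : Submodule ℂ (A n)) (hIE : ∀ s i, ∀ f ∈ I, E s i f ∈ I) (hIm : ∀ f ∈ I, ∀ g, f * g ∈ I)
    {x : A n} (hx : x ∈ HA n N a θ ⊓ I) (C : Fin (m + 1) → ℂ) :
    TT (fun a b => EN n (a + 1) (b + 1)) (fun l => if h : l + 1 < n then (θ ⟨l + 1, h⟩ : ℂ) else 0)
      (fun l => if h : l + 1 < n then (ν ⟨l + 1, h⟩ : ℂ) else 0) m
      (yC m (fun r j => if h : j < m + 1 then cov r ⟨j, h⟩ else 0) C) k x ∈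
      HA n (N + k * B) a (fun i => θ i + k * (ν i + if (i : ℕ) = m + 1 then 1 else 0)) ⊓ I := by
  set θ' : ℕ → ℂ := fun l => if h : l + 1 < n then (θ ⟨l + 1, h⟩ : ℂ) else 0 with hθ'
  set d' : ℕ → ℂ := fun l => if h : l + 1 < n then (ν ⟨l + 1, h⟩ : ℂ) else 0 with hd'
  set L : Fin (m + 1) → ℕ → A n := fun r j => if h : j < m + 1 then cov r ⟨j, h⟩ else 0 with hL
  have hmn := hC.hm
  have hn0 : 0 < n := by omega
  have hLj : ∀ r j (h : j < m + 1), L r j = cov r ⟨j, h⟩ := fun r j h => by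
    simp only [hL, dif_pos h]
  obtain ⟨hx1, hx2⟩ := hx
  obtain ⟨hxW, hxE⟩ := mem_HA.1 hx1
  -- the vectors
  have hY : ∀ r, YVec (n - 1) m (fun a b => EN n (a + 1) (b + 1)) d' (L r) := by
    intro r
    refine ⟨fun t ht j hj => ?_, fun t ht j hj => ?_⟩
    · rw [EN_of (by omega : t + 1 < n) (by omega : t + 1 + 1 < n), hLj r j (by omega),
        hC.raise _ _ (by rw [Fin.lt_def]; simp)]
      by_cases h : t + 1 = j
      · rw [dif_pos ⟨by simp only []; omega, by simp⟩, if_pos h, hLj r t (by omega)]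
        congr 1
      · rw [dif_neg (fun hh => h (by have := hh.1; simp only [] at this; omega)), if_neg h]
    · rw [EN_of (by omega : t + 1 < n) (by omega : t + 1 < n), hLj r j (by omega),
        E_self_WA (hC.wt r ⟨j, by omega⟩)]
      congr 1
      simp only [hd']
      rw [dif_pos (by omega : t + 1 < n)]
      by_cases h : t = j
      · subst h
        simp [add_comm]
      · simp [h]
  have hYC := yC_YVec hY C
  have hxH : x ∈ HW (n - 1) (fun a b => EN n (a + 1) (b + 1)) θ' := by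
    refine ⟨fun p q hpq hq => ?_, fun p hp => ?_⟩
    · rw [EN_of (by omega : p + 1 < n) (by omega : q + 1 < n)]
      exact hxE _ _ (by rw [Fin.lt_def]; simp only []; omega)
    · rw [EN_of (by omega : p + 1 < n) (by omega : p + 1 < n), E_self_WA hxW]
      simp only [hθ']
      rw [dif_pos (by omega : p + 1 < n)]
  have hcc : ∀ s, s < k → ∀ l, l < m → cc θ' d' m s l ≠ 0 := by
    intro s hs l hl h0
    rw [cc] at h0
    simp only [hθ', hd'] at h0
    rw [dif_pos (by omega : l + 1 < n), dif_pos (by omega : m + 1 < n),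
      dif_pos (by omega : l + 1 < n), dif_pos (by omega : m + 1 < n)] at h0
    have h1 := hθ ⟨l + 1, by omega⟩ (by simp) (by simp only []; omega) ⟨m + 1, by omega⟩ rfl
    have h2 := hC.const ⟨l + 1, by omega⟩ ⟨m + 1, by omega⟩ (by simp) (by simp only []; omega)
      (by simp) (by simp only []; omega)
    rw [h2] at h0
    have h3 : ((θ ⟨l + 1, by omega⟩ + (m - l - 1) : ℕ) : ℂ) = ((θ ⟨m + 1, by omega⟩ + s : ℕ) : ℂ) := by
      push_cast [Nat.cast_sub (show 1 ≤ m - l by omega), Nat.cast_sub hl.le]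
      linear_combination h0
    have h4 : θ ⟨l + 1, by omega⟩ + (m - l - 1) = θ ⟨m + 1, by omega⟩ + s := by exact_mod_cast h3
    omega
  have hT := TT_HW EN_rel' (fun a b x y => EN_leib (a + 1) (b + 1) x y) (by omega) hxH hYC k hcc
  set z := TT (fun a b => EN n (a + 1) (b + 1)) θ' d' m (yC m L C) k x with hz
  -- degree and ideal
  have hmem : z ∈ DA n (N + k * B) a ⊓ I := by
    refine TT_mem (fun s => DA n (N + s * B) a ⊓ I) ?_ ?_ (x := x) ⟨?_, hx2⟩ k
    · rintro s f ⟨h1, h2⟩ p q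
      by_cases h : p + 1 < n ∧ q + 1 < n
      · simp only [EN_of h.1 h.2]
        exact ⟨E_mem_DA _ _ h1, hIE _ _ _ h2⟩
      · have : EN n (p + 1) (q + 1) f = 0 := by rw [EN, dif_neg h]; rfl
        rw [this]
        exact Submodule.zero_mem _
    · rintro s f ⟨h1, h2⟩ l hl
      refine ⟨?_, hIm _ h2 _⟩
      have e : N + (s + 1) * B = N + s * B + B := by ring
      rw [e]
      apply mul_mem_DA h1
      rw [yC]
      refine Submodule.sum_mem _ (fun r _ => Submodule.smul_mem _ _ ?_)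
      rw [hLj r l (by omega)]
      exact WA_le_DA (hC.wt r _)
    · simp only [Nat.zero_mul, Nat.add_zero]
      exact WA_le_DA hxW
  -- row 0
  have hval0 : ∀ (q : Fin n) (l : ℕ), l ≤ m → 1 ≤ (q : ℕ) →
      E (⟨0, hn0⟩ : Fin n) q (yC m L C l) = (0 : ℂ) • yC m L C l := by
    intro q l hl hq
    rw [zero_smul, yC, map_sum]
    refine Finset.sum_eq_zero (fun r _ => ?_)
    rw [hLj r l (by omega), Derivation.map_smul, hC.raise _ _ (by rw [Fin.lt_def]; exact hq),
      dif_neg (by simp), smul_zero]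
  have h01 : ∀ (hn1 : 1 < n), E (⟨0, hn0⟩ : Fin n) ⟨1, hn1⟩ z = 0 := by
    intro hn1
    have h := TT_op (E' := fun a b => EN n (a + 1) (b + 1)) (θ := θ') (d := d') (i := m)
      (y := yC m L C) (EN n 0 1) (fun x y => EN_leib 0 1 x y) (fun p l hl hp w => ?_)
      (δ := 0) (τ := 0) (fun l hl => ?_) (x := x) ?_ k
    · rw [EN_of hn0 hn1] at h
      rw [hz, h]
      simp
    · have h2 := EN_rel (n := n) 0 1 (p + 1) (l + 1) hn0 hn1 (by omega) (by omega) w
      rw [if_neg (by omega), if_neg (by omega)] at h2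
      simpa using h2
    · rw [EN_of hn0 hn1]
      exact hval0 _ l hl (le_refl 1)
    · rw [EN_of hn0 hn1, zero_smul]
      exact hxE _ _ (by rw [Fin.lt_def]; simp)
  have h00 : E (⟨0, hn0⟩ : Fin n) ⟨0, hn0⟩ z =
      ((θ ⟨0, hn0⟩ : ℂ) + k * (ν ⟨0, hn0⟩ : ℂ)) • z := by
    have h := TT_op (E' := fun a b => EN n (a + 1) (b + 1)) (θ := θ') (d := d') (i := m)
      (y := yC m L C) (EN n 0 0) (fun x y => EN_leib 0 0 x y) (fun p l hl hp w => ?_)
      (δ := (ν ⟨0, hn0⟩ : ℂ)) (τ := (θ ⟨0, hn0⟩ : ℂ)) (fun l hl => ?_) (x := x) ?_ k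
    · rw [EN_of hn0 hn0] at h
      rw [hz, h]
    · have h2 := EN_rel (n := n) 0 0 (p + 1) (l + 1) hn0 hn0 (by omega) (by omega) w
      rw [if_neg (by omega), if_neg (by omega)] at h2
      simpa using h2
    · rw [EN_of hn0 hn0, yC, map_sum, Finset.smul_sum]
      refine Finset.sum_congr rfl (fun r _ => ?_)
      rw [hLj r l (by omega), Derivation.map_smul, E_self_WA (hC.wt r _), smul_comm]
      simp
    · rw [EN_of hn0 hn0]
      exact E_self_WA hxW _
  refine ⟨mem_HA.2 ⟨mem_WA_of hmem.1 (fun i => ?_), ?_⟩, hmem.2⟩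
  · by_cases hi0 : (i : ℕ) = 0
    · have : i = ⟨0, hn0⟩ := Fin.ext hi0
      subst this
      rw [h00]
      congr 1
      push_cast
      simp
    · have h := hT.2 ((i : ℕ) - 1) (by have := i.2; omega)
      rw [EN_of (by have := i.2; omega : (i : ℕ) - 1 + 1 < n)
        (by have := i.2; omega : (i : ℕ) - 1 + 1 < n)] at h
      have hi : (⟨(i : ℕ) - 1 + 1, by have := i.2; omega⟩ : Fin n) = i :=
        Fin.ext (by simp only []; omega)
      rw [hi] at h
      rw [h]
      congr 1
      simp only [hθ', hd']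
      rw [dif_pos (by have := i.2; omega : (i : ℕ) - 1 + 1 < n),
        dif_pos (by have := i.2; omega : (i : ℕ) - 1 + 1 < n)]
      simp only [hi]
      push_cast
      by_cases h5 : (i : ℕ) = m + 1
      · rw [if_pos (by omega), if_pos h5]
        ring
      · rw [if_neg (by omega), if_neg h5]
        ring
  · -- raising operators
    have hsimple : ∀ r, r + 1 < n → EN n r (r + 1) z = 0 := by
      intro r hr
      rcases Nat.eq_zero_or_pos r with h0 | h0
      · subst h0
        rw [EN_of hn0 hr]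
        exact h01 hr
      · have h := hT.1 (r - 1) r (by omega) (by omega)
        have e : r - 1 + 1 = r := by omega
        simp only [e] at h
        exact h
    have hall := (HW_of_simple (θ := fun a => if h : a < n then
      ((θ ⟨a, h⟩ : ℂ) + k * ((ν ⟨a, h⟩ : ℂ) + if a = m + 1 then 1 else 0)) else 0)
      EN_rel hsimple (fun p hp => ?_)).1
    · intro s i hsi
      have h := hall s i hsi i.2
      rwa [EN_of s.2 i.2] at h
    · rw [EN_of hp hp, dif_pos hp]
      rcases Nat.eq_zero_or_pos p with h0 | h0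
      · subst h0
        rw [h00]
        congr 1
        rw [if_neg (by omega)]
        ring
      · have h := hT.2 (p - 1) (by omega)
        rw [EN_of (by omega : p - 1 + 1 < n) (by omega : p - 1 + 1 < n)] at h
        have e : (⟨p - 1 + 1, by omega⟩ : Fin n) = ⟨p, hp⟩ := Fin.ext (by simp only []; omega)
        rw [e] at h
        rw [h]
        congr 1
        simp only [hθ', hd']
        rw [dif_pos (by omega : p - 1 + 1 < n), dif_pos (by omega : p - 1 + 1 < n)]
        simp only [e]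
        by_cases h5 : p = m + 1
        · rw [if_pos (by omega), if_pos h5]
          ring
        · rw [if_neg (by omega), if_neg h5]
          ring

/-- **(S1)** The Pieri step: `k` boxes in row `m + 1` (numbered from `0`). -/
theorem s1 {m B a k : ℕ} {ν θ : Fin n → ℕ} {cov : Fin (m + 1) → Fin (m + 1) → A n}
    (hC : Cov n (m + 1) B a ν cov)
    (hθ : ∀ l : Fin n, 1 ≤ (l : ℕ) → (l : ℕ) < m + 1 → ∀ i : Fin n, (i : ℕ) = m + 1 →
      θ i + k ≤ θ l)
    (I : Submodule ℂ (A n)) (hIE : ∀ s i, ∀ f ∈ I, E s i f ∈ I) (hIm : ∀ f ∈ I, ∀ g, f * g ∈ I) :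
    Module.finrank ℂ ↥(HA n N a θ ⊓ I) ≤ (k + 1) ^ (m + 1) * Module.finrank ℂ
      ↥(HA n (N + k * B) a (fun i => θ i + k * (ν i + if (i : ℕ) = m + 1 then 1 else 0)) ⊓ I) := by
  classical
  set V' := HA n (N + k * B) a (fun i => θ i + k * (ν i + if (i : ℕ) = m + 1 then 1 else 0)) ⊓ I
    with hV'
  have : Module.Finite ℂ V' := Submodule.finiteDimensional_of_le (inf_le_left)
  let T : (Fin (m + 1) → Fin (k + 1)) → (A n →ₗ[ℂ] A n) := fun C =>
    TT (fun a b => EN n (a + 1) (b + 1)) (fun l => if h : l + 1 < n then (θ ⟨l + 1, h⟩ : ℂ) else 0)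
      (fun l => if h : l + 1 < n then (ν ⟨l + 1, h⟩ : ℂ) else 0) m
      (yC m (fun r j => if h : j < m + 1 then cov r ⟨j, h⟩ else 0)
        (fun r => ((C r : ℕ) : ℂ))) k
  have hT : ∀ C, ∀ x ∈ HA n N a θ ⊓ I, T C x ∈ V' := fun C x hx =>
    s1_mem hC hθ I hIE hIm hx _
  let Φ : ↥(HA n N a θ ⊓ I) →ₗ[ℂ] ((Fin (m + 1) → Fin (k + 1)) → V') :=
    LinearMap.pi (fun C => (T C).restrict (hT C))
  have hΦ : Function.Injective Φ := by
    rw [injective_iff_map_eq_zero]
    intro x hx
    apply Subtype.ext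
    have hdet : Matrix.det (Matrix.of (fun r j : Fin (m + 1) =>
        (fun r (j : ℕ) => if h : j < m + 1 then cov r ⟨j, h⟩ else 0) r (j : ℕ))) ≠ 0 := by
      have e : (Matrix.of (fun r j : Fin (m + 1) =>
          (fun r (j : ℕ) => if h : j < m + 1 then cov r ⟨j, h⟩ else 0) r (j : ℕ))) =
          Matrix.of cov := by
        ext1 r j
        simp only [Matrix.of_apply]
        rw [dif_pos j.2]
      rw [e]
      exact hC.det
    refine grid_inj (E := fun a b => EN n (a + 1) (b + 1))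
      (θ := fun l => if h : l + 1 < n then (θ ⟨l + 1, h⟩ : ℂ) else 0)
      (d := fun l => if h : l + 1 < n then (ν ⟨l + 1, h⟩ : ℂ) else 0)
      (L := fun r (j : ℕ) => if h : j < m + 1 then cov r ⟨j, h⟩ else 0)
      (fun f hf => A_sep f hf) hdet k x.1 (fun C => ?_)
    have h1 := congrFun hx C
    exact congrArg Subtype.val h1
  have h1 := LinearMap.finrank_le_finrank_of_injective hΦ
  rw [Module.finrank_pi_fintype, Finset.sum_const, Finset.card_univ, Fintype.card_fun,
    Fintype.card_fin, Fintype.card_fin, smul_eq_mul] at h1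
  exact h1

end Vale.Agent.P181.Z.H503S
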