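import Vale.Agent.P181.Z.H503.PieH
import Vale.Agent.P181.H530.KHI
import Vale.Agent.P181.Z.H914.Cov
import Vale.Agent.P181.Z.H582.Wall

/-! The Pieri hypothesis of the wall holds, with explicit constants. -/

set_option autoImplicit false

namespace Vale.Agent.P181.Z.H503S

open MvPolynomial Vale.Agent.P181 Vale.Agent.P181.H280 Vale.Agent.P181.H530.Torus
  Vale.Agent.P181.Z.H592 Vale.Agent.P181.Z463 Vale.Agent.P181.H530.KHI Vale.Agent.P181.Z.H914

/-- The covariants of `H914.cov` in the form of `CovStmt`. -/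
theorem covStmt_C {n a j : ℕ} (hj : j < n + 2) (ha : 3 ≤ a) :
    CovStmt (n + 3) a (j + 1) (BC j) (6 * j + 2) := by
  obtain ⟨l, hl, hdet⟩ := H914.cov (n + 2) j a (by omega) ha
  refine ⟨by omega, nuC (n + 2) j a, l, hl, fun h => ?_, fun i hi hi' => ?_, fun i hi => ?_, ?_⟩
  · simp [nuC]
  · rw [nuC, if_neg (by omega), if_neg (by omega), if_pos hi']
  · exact nuC_out hi
  · have e : (Matrix.of fun r t : Fin (j + 1) => H592.cov (by omega) (l r) t) =
        (Matrix.of fun r t : Fin (j + 1) => if t = 0 then l r else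
          E (emb (by omega : j + 1 ≤ n + 2) t) (emb (by omega : j + 1 ≤ n + 2) 0) (l r)) := by
      ext1 r t
      simp only [Matrix.of_apply, H592.cov]
      by_cases h : t = 0
      · rw [if_pos h, if_pos (by rw [h]; rfl)]
      · have h' : ¬ (t : ℕ) = 0 := fun h' => h (Fin.ext h')
        rw [if_neg h, if_neg h']
        rfl
    rw [e]
    exact hdet

/-- **The Pieri hypothesis of the wall**. -/
theorem pieH_C {n a : ℕ} (ha : 3 ≤ a) : H582.PieH n a BC (fun j => 6 * j + 2) := by
  intro j hj hj' k b θ hanti hk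
  exact (pie_of hj hj' (covStmt_C hj' ha) (IS (n + 3) a) (fun s i f hf => E_mem_IK s i hf)
    (fun f hf g => Ideal.mul_mem_right g (IK (n + 3) a) hf) (fun N θ => finrank_KH_eq N a (n + 3) θ)
    k b θ hanti hk).2

/-- The letters suffice. -/
theorem BC_bound {a j : ℕ} (ha : 3 ≤ a) : (j + 1) * (6 * j + 2) + 1 ≤ a * BC j := by
  have h : (j + 1) * (6 * j + 2) + 1 = BC j := by
    rw [BC]
    ring
  rw [h]
  exact Nat.le_mul_of_pos_left _ (by omega)

end Vale.Agent.P181.Z.H503S
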