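import Vale.Agent.P181.Z.H503.PieI
import Vale.Agent.P181.Z.H582.Wall2
import Vale.Agent.P181.Z.H483.Bridge
import Vale.Agent.P181.Z.H463.Anti
import Vale.Agent.P181.H403.Z.Asm3
import Vale.Agent.P181.Z.H412.Budget

/-! The core theorem for `b` linear in `a`, from the analysis half. -/

set_option autoImplicit false

namespace Vale.Agent.P181.Z.H503L

open Vale.Agent.P181 Vale.Agent.P181.H280 Vale.Agent.P181.Z463 Vale.Agent.P181.Z.H582
  Vale.Agent.P181.Z.H483 Vale.Agent.P181.H921.Z Vale.Agent.P181.H403.Asm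

/-- The analysis half, for `b` linear in `a`. -/
def ANAL (k : ℕ) : Prop := ∀ (E C0 : ℕ) (s : ℝ), 0 < s → s < 1 / 4 → ∀ K : ℝ, 0 ≤ K →
    ∃ a0 : ℕ, ∀ a : ℕ, a0 ≤ a → ∀ N t : ℕ, (a : ℝ) / 8 ≤ N → (N : ℝ) ≤ (a : ℝ) ^ 2 →
    (a : ℝ) ≤ t →
    ∀ m : Fin (k + 2) → ℝ, (∀ i, 0 < m i) → Antitone m →
      (a : ℝ) / (8 * ((k : ℝ) + 3)) ≤ m 1 →
      ∏ i, max 1 (m i / a) ≤ (a : ℝ) ^ (1 - ((k : ℝ) + 3) * s) →
    ∃ x : Fin (k + 2) → ℝ, (∀ i, 0 < x i) ∧ Monotone x ∧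
      (∀ i, mean (Lt a (k + 2)) x i = m i - K * (a : ℝ) ^ (1 / 2 - s / 4) / x i) ∧ x 1 ≤ 1 ∧
      2 ≤ x 0 * (a : ℝ) ∧ 2 ≤ x 1 * (a : ℝ) ^ (1 / 2 - s / 2 + s / 32) ∧
      ∀ lam : Fin (k + 2) → ℕ,
        ∑ i, x i * ((lam i : ℝ) - m i) ≤ x 1 * ((t : ℝ) / 4) →
      ∀ (J : (Fin (k + 2) → ℕ) → Prop) [DecidablePred J],
        (∀ v, J v → ∃ j : Fin (k + 2), 1 ≤ j ∧ v j ≠ 0) →
      ∀ (f : (Fin (k + 2) → ℕ) → ℝ) (P : ℝ), 0 < P → P ≤ ((N * a + 1 : ℕ) : ℝ) ^ E →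
        (∀ θ, f θ ≤ cnt (Lt a (k + 2)) N θ) →
        (∀ w, 0 < cnt (Lt a (k + 2)) N w → ∃ θ : Fin (k + 2) → ℕ,
          (∀ r : ℕ, ∑ i : Fin (k + 2), (if r ≤ (i : ℕ) then θ i else 0) ≤
            ∑ i : Fin (k + 2), (if r ≤ (i : ℕ) then w i else 0)) ∧
            (cnt (Lt a (k + 2)) N w : ℝ) ≤ P * f θ) →
        ∃ θ : Fin (k + 2) → ℕ,
          (∀ i, |x i * (m i - θ i) - K * (a : ℝ) ^ (1 / 2 - s / 4)| < (a : ℝ) ^ (1 / 2 - s / 4)) ∧
          (a : ℝ) ^ C0 * ((NTs (Lt a (k + 2)) J lam t).ncard : ℝ) ≤ f θ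

/-- The chain, from the shape of the pigeonhole to `lam`, with the budget of letters. -/
theorem chain_part {n a b : ℕ} {K : ℝ} (hK1 : 1 ≤ K) (han : n + 4 ≤ a)
    (e1 : (26 : ℝ) * a + 5 * K * (n + 1) * a + 16 * K * a +
      20 * K * ((∑ i : Fin (n + 2), H914.BC (i : ℕ) : ℕ) : ℝ) * a + 20 * (n + 3) ^ 2 * a ≤ b)
    (lam : Fin (n + 3) → ℕ) (hanti : Antitone lam) (hsum : ∑ i, lam i = b * a)
    (hlam2 : (lam 1 : ℝ) ≤ (a : ℝ) ^ 2) (θ : Fin (n + 2) → ℕ) (hθsum : ∑ i, θ i ≤ a * a)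
    (κ : Fin (n + 3) → ℕ) (y : Pleth (a + 4) a (n + 3)) (hy0 : y ≠ 0)
    (hy : y ∈ KH (a + 4) a (n + 3) κ) (hκs : ∑ i, κ i = (a + 4) * a)
    (k nu : Fin (n + 2) → ℕ) (hk0 : k 0 = 0) (hkle : ∀ i : Fin (n + 2), (k i : ℝ) ≤ 5 * K * a)
    (hdec : ∀ j : Fin (n + 2), lam j.succ = θ j + κ j.succ + nu j + k j +
      ∑ i ∈ (Finset.univ : Finset (Fin (n + 2))).filter (fun i => j ≤ i),
        (6 * (i : ℕ) + 2) * k i)
    (hnuanti : Antitone nu) (hnu : nu 1 + ((n + 3) ^ 3 + 3) ≤ nu 0) :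
    fP a a θ ≤ ((b + 1 : ℕ) : ℝ) ^ ((n + 3) * (n + 1)) *
      (Module.finrank ℂ (KH b a (n + 3) lam) : ℝ) := by
  have hn0 : (0 : ℝ) ≤ n := Nat.cast_nonneg n
  have haR : (4 : ℝ) ≤ a := by
    have : 4 ≤ a := by omega
    exact_mod_cast this
  have hSB0 : (0 : ℝ) ≤ ((∑ i : Fin (n + 2), H914.BC (i : ℕ) : ℕ) : ℝ) := Nat.cast_nonneg _
  have hK0 : (0 : ℝ) < K := by linarith
  have p1 : (0 : ℝ) ≤ 5 * K * (n + 1) * a := by positivity
  have p2 : (0 : ℝ) ≤ 16 * K * a := by positivity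
  have p3 : (0 : ℝ) ≤ 20 * K * ((∑ i : Fin (n + 2), H914.BC (i : ℕ) : ℕ) : ℝ) * a := by positivity
  have p4 : (0 : ℝ) ≤ 20 * ((n : ℝ) + 3) ^ 2 * a := by positivity
  have hkB : ((∑ i : Fin (n + 2), k i * H914.BC (i : ℕ) : ℕ) : ℝ) ≤
      5 * K * a * ((∑ i : Fin (n + 2), H914.BC (i : ℕ) : ℕ) : ℝ) := by
    push_cast
    rw [Finset.mul_sum]
    refine Finset.sum_le_sum fun i _ => ?_
    exact mul_le_mul_of_nonneg_right (hkle i) (Nat.cast_nonneg _)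
  have hkB2 : ((∑ i : Fin (n + 2), k i * H914.BC (i : ℕ) : ℕ) : ℝ) ≤ b / 4 := by
    refine hkB.trans ?_
    have : 5 * K * a * ((∑ i : Fin (n + 2), H914.BC (i : ℕ) : ℕ) : ℝ) =
      (20 * K * ((∑ i : Fin (n + 2), H914.BC (i : ℕ) : ℕ) : ℝ) * a) / 4 := by ring
    rw [this]
    linarith
  generalize hS : ∑ i : Fin (n + 2), k i * H914.BC (i : ℕ) = S at hkB2
  have hSle : a + (a + 4) + S ≤ b := by
    have h1 : ((a + (a + 4) + S : ℕ) : ℝ) ≤ b := by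
      push_cast
      linarith
    exact_mod_cast h1
  obtain ⟨Bnu, hBnu⟩ : ∃ Bnu : ℕ, a + (a + 4) + Bnu + S = b := ⟨b - (a + (a + 4) + S), by omega⟩
  have hBnuR : (b : ℝ) / 2 ≤ Bnu := by
    have h1 : ((a + (a + 4) + Bnu + S : ℕ) : ℝ) = b := by
      exact_mod_cast hBnu
    push_cast at h1
    linarith
  have hcart : (n + 3) * nu 0 + 4 * (n + 3) ^ 2 * a ≤ (a - 1) * Bnu := by
    have h1 : nu 0 ≤ lam 1 := by
      have h2 := hdec 0
      have h3 : lam (Fin.succ (0 : Fin (n + 2))) = lam 1 := rfl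
      rw [h3] at h2
      omega
    have h2 : (nu 0 : ℝ) ≤ (a : ℝ) ^ 2 := by
      refine le_trans ?_ hlam2
      exact_mod_cast h1
    have h3 : ((n : ℝ) + 3) * nu 0 + 4 * ((n : ℝ) + 3) ^ 2 * a ≤ ((a : ℝ) - 1) * Bnu := by
      have h4 : ((n : ℝ) + 3) * nu 0 ≤ ((n : ℝ) + 3) ^ 2 * (a : ℝ) ^ 2 := by
        have h5 : ((n : ℝ) + 3) * nu 0 ≤ ((n : ℝ) + 3) * (a : ℝ) ^ 2 :=
          mul_le_mul_of_nonneg_left h2 (by linarith)
        have h6 : ((n : ℝ) + 3) * (a : ℝ) ^ 2 ≤ ((n : ℝ) + 3) ^ 2 * (a : ℝ) ^ 2 := by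
          refine mul_le_mul_of_nonneg_right ?_ (by positivity)
          nlinarith
        linarith
      have h7 : 4 * ((n : ℝ) + 3) ^ 2 * a ≤ ((n : ℝ) + 3) ^ 2 * (a : ℝ) ^ 2 := by
        have : 4 * ((n : ℝ) + 3) ^ 2 * a = ((n : ℝ) + 3) ^ 2 * (4 * a) := by ring
        rw [this]
        refine mul_le_mul_of_nonneg_left ?_ (by positivity)
        nlinarith
      have h8 : (a : ℝ) / 2 * (10 * ((n : ℝ) + 3) ^ 2 * a) ≤ ((a : ℝ) - 1) * Bnu :=
        mul_le_mul (by linarith) (by linarith) (by positivity) (by linarith)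
      have h9 : (a : ℝ) / 2 * (10 * ((n : ℝ) + 3) ^ 2 * a) =
          5 * (((n : ℝ) + 3) ^ 2 * (a : ℝ) ^ 2) := by ring
      have h10 : 0 ≤ ((n : ℝ) + 3) ^ 2 * (a : ℝ) ^ 2 := by positivity
      linarith
    have h6 : (((n + 3) * nu 0 + 4 * (n + 3) ^ 2 * a : ℕ) : ℝ) ≤ (((a - 1) * Bnu : ℕ) : ℝ) := by
      push_cast [Nat.cast_sub (show 1 ≤ a by omega)]
      exact h3
    exact_mod_cast h6
  have hlamsum : ∑ i : Fin (n + 2), lam i.succ ≤ b * a := by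
    have h5 := hsum
    rw [Fin.sum_univ_succ] at h5
    omega
  have hfin := wall_run' (n := n) (N := a) (a := a) (b := b) H914.BC (fun j => 6 * j + 2)
    (H503S.pieH_C (by omega)) (fun j _ => H503S.BC_bound (by omega)) (by omega) κ hκs
    (fun N θ0 => plethMult_le_KH hy hy0) θ hθsum (fun i => lam i.succ) hlamsum
    (fun i j hij => hanti (Fin.succ_le_succ_iff.2 hij)) k nu hk0 hdec hnuanti hnu Bnu
    (by rw [hS]; exact hBnu) hcart
  have hfull : full b a (fun i => lam i.succ) = lam := by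
    unfold full up
    funext i
    refine Fin.cases ?_ (fun i => ?_) i
    · have h5 := hsum
      rw [Fin.sum_univ_succ] at h5
      show b * a - ∑ i : Fin (n + 2), lam i.succ = lam 0
      omega
    · rw [Fin.cons_succ]
  rw [hfull] at hfin
  exact hfin

/-- The second row is at most `a ^ 2`. -/
theorem lam_one_le {n a : ℕ} (ha : 1 ≤ a) {s : ℝ} (hs : 0 < s) (lam : Fin (n + 3) → ℕ)
    (hprod : ∏ i : Fin (n + 2), max 1 ((lam i.succ : ℝ) / a) ≤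
      (a : ℝ) ^ (1 - ((n : ℝ) + 3) * s)) : (lam 1 : ℝ) ≤ (a : ℝ) ^ 2 := by
  have haR : (1 : ℝ) ≤ a := by exact_mod_cast ha
  have ha0 : (0 : ℝ) < a := by linarith
  have hn0 : (0 : ℝ) ≤ n := Nat.cast_nonneg n
  have h1 : (lam 1 : ℝ) / a ≤ ∏ i : Fin (n + 2), max 1 ((lam i.succ : ℝ) / a) := by
    rw [Fin.prod_univ_succ]
    have h2 : (lam 1 : ℝ) / a ≤ max 1 ((lam (Fin.succ (0 : Fin (n + 2))) : ℝ) / a) :=
      le_max_right _ _
    have h3 : (1 : ℝ) ≤ ∏ i : Fin (n + 1), max 1 ((lam i.succ.succ : ℝ) / a) := by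
      have h6 := Finset.prod_le_prod (s := Finset.univ) (f := fun _ : Fin (n + 1) => (1 : ℝ))
        (g := fun i : Fin (n + 1) => max 1 ((lam i.succ.succ : ℝ) / a))
        (fun _ _ => zero_le_one) (fun i _ => le_max_left 1 _)
      rwa [Finset.prod_const_one] at h6
    refine h2.trans (le_mul_of_one_le_right ?_ h3)
    exact le_trans zero_le_one (le_max_left _ _)
  have h4 : (a : ℝ) ^ (1 - ((n : ℝ) + 3) * s) ≤ a := by
    calc (a : ℝ) ^ (1 - ((n : ℝ) + 3) * s) ≤ (a : ℝ) ^ (1 : ℝ) :=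
        Real.rpow_le_rpow_of_exponent_le (by linarith) (by nlinarith)
      _ = a := Real.rpow_one _
  have h5 : (lam 1 : ℝ) / a ≤ a := (h1.trans hprod).trans h4
  rw [div_le_iff₀ ha0] at h5
  nlinarith

/-- **The core theorem for `b` linear in `a`.** -/
theorem coreL_of {n : ℕ} (hAna : ANAL n) {s : ℝ} (hs : 0 < s) (hs' : s < 1 / 4) :
    ∃ (C : ℝ) (a0 : ℕ), ∀ a : ℕ, a0 ≤ a → ∀ b : ℕ, C * (a : ℝ) ≤ b → b + 1 ≤ a ^ 2 →
      ∀ lam : Fin (n + 3) → ℕ, Antitone lam → (∀ i, 0 < lam i) → ∑ i, lam i = b * a →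
      ∏ i : Fin (n + 2), max 1 ((lam i.succ : ℝ) / a) ≤ (a : ℝ) ^ (1 - ((n : ℝ) + 3) * s) →
      plethMult a b (n + 3) lam ≤ plethMult b a (n + 3) lam := by
  classical
  obtain ⟨K, hK1, hBr⟩ := bridge n (∑ i ∈ Finset.range (n + 2), (6 * i + 2))
  obtain ⟨a2, hA⟩ := hAna ((n + 3) * (n + 3)) (2 * ((n + 3) * (n + 1))) s hs hs' K (by linarith)
  set SB : ℕ := ∑ i : Fin (n + 2), H914.BC (i : ℕ) with hSB
  have hn0 : (0 : ℝ) ≤ n := Nat.cast_nonneg n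
  have hSB0 : (0 : ℝ) ≤ SB := Nat.cast_nonneg _
  obtain ⟨a3, ha3'⟩ := Filter.eventually_atTop.1
    (H412.ev_pow (s := 0) (t := 1 / 2 - s / 4) (by linarith) (((n + 3) ^ 3 + 3 : ℕ) : ℝ))
  set C : ℝ := 26 + 5 * K * (n + 1) + 16 * K + 20 * K * SB + 20 * (n + 3) ^ 2 with hC
  refine ⟨C, max (n + 4) (max a2 a3), fun a ha b hb hb2 lam hanti hpos hsum hprod => ?_⟩
  have han : n + 4 ≤ a := (le_max_left _ _).trans ha
  have ha2 : a2 ≤ a := ((le_max_left a2 a3).trans (le_max_right _ _)).trans ha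
  have ha3 : a3 ≤ a := ((le_max_right a2 a3).trans (le_max_right _ _)).trans ha
  have num := ha3' a ha3
  rw [Real.rpow_zero, mul_one] at num
  have haR : (4 : ℝ) ≤ a := by
    have : 4 ≤ a := by omega
    exact_mod_cast this
  have ha0 : (0 : ℝ) < a := by linarith
  have hK0 : (0 : ℝ) < K := by linarith
  -- `b` is large
  have e1 : (26 : ℝ) * a + 5 * K * (n + 1) * a + 16 * K * a + 20 * K * SB * a +
      20 * (n + 3) ^ 2 * a ≤ b := by
    refine le_trans (le_of_eq ?_) hb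
    rw [hC]
    ring
  have p1 : (0 : ℝ) ≤ 5 * K * (n + 1) * a := by positivity
  have p2 : (0 : ℝ) ≤ 16 * K * a := by positivity
  have p3 : (0 : ℝ) ≤ 20 * K * SB * a := by positivity
  have p4 : (0 : ℝ) ≤ 20 * ((n : ℝ) + 3) ^ 2 * a := by positivity
  have hbig : 8 * (a : ℝ) ≤ b := by linarith
  have hbigN : 8 * a ≤ b := by exact_mod_cast hbig
  obtain ⟨t, ht⟩ : ∃ t : ℕ, t = b + 3 - 2 * a := ⟨_, rfl⟩
  have ht1 : 2 * a + t ≤ b + 3 := by omega
  have ht2 : t ≤ b := by omega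
  have htR : (b : ℝ) - 2 * a ≤ t := by
    have : b ≤ t + 2 * a := by omega
    have h2 : (b : ℝ) ≤ t + 2 * a := by exact_mod_cast this
    linarith
  obtain ⟨lamb, hlamb⟩ : ∃ lamb : Fin (n + 2) → ℕ, lamb = fun i => lam i.succ := ⟨_, rfl⟩
  have hlb : ∀ i, lamb i = lam i.succ := fun i => by rw [hlamb]
  have hantib : Antitone lamb := fun i j hij => by
    rw [hlb, hlb]
    exact hanti (Fin.succ_le_succ_iff.2 hij)
  have hposb : ∀ i, 0 < lamb i := fun i => by rw [hlb]; exact hpos _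
  have hKH := KH_le_NTs (n := n + 1) (a := a) (b := b) lam ht1 ht2
  rw [← hlamb] at hKH
  by_cases hNt : (NTs (Lt a (n + 2)) (fun v => ∃ i : Fin (n + 1), v i.succ ≠ 0) lamb t).ncard = 0
  · apply H530.Alg.foulkes_of_ker
    exact hKH.trans (by rw [hNt]; exact Nat.zero_le _)
  obtain ⟨s1, hs1⟩ := Set.nonempty_of_ncard_ne_zero hNt
  have ht3 : t ≤ ∑ i : Fin (n + 1), lamb i.succ := by
    have h1 := hs1.2.2.trans (card_filter_le s1)
    rwa [hs1.2.1] at h1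
  have ht4 : t ≤ (n + 1) * lamb 1 := by
    refine ht3.trans ?_
    calc ∑ i : Fin (n + 1), lamb i.succ ≤ ∑ _i : Fin (n + 1), lamb 1 := by
          refine Finset.sum_le_sum fun i _ => hantib ?_
          rw [Fin.le_def]
          simp
      _ = (n + 1) * lamb 1 := by simp
  have ht5 : (b : ℝ) - 2 * a ≤ ((n : ℝ) + 1) * lamb 1 := by
    have : (t : ℝ) ≤ ((n : ℝ) + 1) * lamb 1 := by exact_mod_cast ht4
    linarith
  have hKa : K * ((a : ℝ) + 3) ≤ 4 * K * a := by nlinarith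
  have hlam1' : 4 * K * a + a ≤ lamb 1 := by
    have h1 : ((n : ℝ) + 1) * (4 * K * a + a) ≤ ((n : ℝ) + 1) * lamb 1 := by
      have h2 : ((n : ℝ) + 1) * (4 * K * a + a) ≤ 5 * K * (n + 1) * a := by
        have h3 : ((n : ℝ) + 1) * a ≤ ((n : ℝ) + 1) * a * K :=
          le_mul_of_one_le_right (by positivity) hK1
        nlinarith
      linarith
    exact le_of_mul_le_mul_left h1 (by positivity)
  have hlam1 : K * ((a : ℝ) + 3) < lamb 1 := by linarith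
  -- the bridge
  obtain ⟨D, hD⟩ : ∃ D : ℝ, D = (a : ℝ) ^ (1 / 2 - s / 4) := ⟨_, rfl⟩
  have hD0 : 0 < D := by rw [hD]; positivity
  obtain ⟨m, hm0, hmanti, hmle, hmge, hbr⟩ := hBr (fun i => 6 * (i : ℕ) + 2)
    (fun i => Finset.single_le_sum (f := fun i => 6 * i + 2) (fun _ _ => Nat.zero_le _)
      (Finset.mem_range.2 i.2)) ((n + 3) ^ 3 + 3) a (by positivity |> fun (_ : 0 ≤ n) => by
        have : 1 ≤ (n + 3) ^ 3 := Nat.one_le_pow _ _ (by omega)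
        omega) lamb hantib hlam1 hposb (K * D) D hD0 le_rfl
  -- the analysis
  have hprodm : ∏ i, max 1 (m i / a) ≤ (a : ℝ) ^ (1 - ((n : ℝ) + 3) * s) := by
    refine le_trans ?_ hprod
    refine Finset.prod_le_prod (fun i _ => le_trans zero_le_one (le_max_left _ _)) fun i _ => ?_
    refine max_le_max le_rfl ?_
    have h1 := hmle i
    rw [hlb] at h1
    gcongr
  obtain ⟨x, hx0, hxmono, hxmean, hx1, hx0b, hx1b, hx⟩ := hA a ha2 a t (by linarith)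
    (by nlinarith) (by linarith) m hm0 hmanti
    (by
      have h1 := hmge 1
      have h2 : (a : ℝ) / (8 * ((n : ℝ) + 3)) ≤ a := div_le_self ha0.le (by linarith)
      linarith) hprodm
  rw [← hD] at hxmean
  obtain ⟨hprice, hbr2⟩ := hbr x hx0 hxmono hxmean (by
    have h1 : (((n + 3) ^ 3 + 3 : ℕ) : ℝ) * x 1 ≤ (((n + 3) ^ 3 + 3 : ℕ) : ℝ) * 1 := by gcongr
    rw [hD]
    linarith)
  obtain ⟨θ, hθ, hNtf⟩ := hx lamb (by
      refine hprice.trans ?_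
      rw [mul_comm]
      refine mul_le_mul_of_nonneg_left ?_ (hx0 1).le
      linarith)
    (fun v => ∃ i : Fin (n + 1), v i.succ ≠ 0)
    (fun v ⟨i, hi⟩ => ⟨i.succ, by rw [Fin.le_def]; simp, hi⟩) (fP a a)
    (((a * a + 1 : ℕ) : ℝ) ^ ((n + 3) * (n + 3))) (by positivity) le_rfl
    (fun θ => fP_le a a θ) (fun w hw => exists_fP a a w hw)
  rw [← hD] at hθ
  -- the kernel element
  obtain ⟨κ, y, hy0, hy, hκanti, hκs, hκ1, hκ2, hκ3⟩ := exists_eqC n a (by omega)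
  obtain ⟨k, nu, hk0, hdec, hnuanti, hnu, hk⟩ := hbr2 θ (fun i => κ i.succ)
    (by
      have : κ (Fin.succ (0 : Fin (n + 2))) = κ 1 := rfl
      rw [this]; omega)
    (by
      have : κ (Fin.succ (1 : Fin (n + 2))) = κ 2 := by congr 1
      rw [this]; exact hκ2)
    (fun i hi => hκ3 _ (by
      rw [Fin.val_succ]
      omega)) hθ
  -- the sum of `θ`
  have hNtpos : (0 : ℝ) < ((NTs (Lt a (n + 2)) (fun v => ∃ i : Fin (n + 1), v i.succ ≠ 0)
      lamb t).ncard : ℝ) := by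
    exact_mod_cast Nat.pos_of_ne_zero hNt
  have hfpos : 0 < fP a a θ := lt_of_lt_of_le (by positivity) hNtf
  have hθsum : ∑ i, θ i ≤ a * a := by
    by_contra hcon
    rw [fP, if_neg hcon] at hfpos
    exact lt_irrefl _ hfpos
  -- the budget
  have hkle : ∀ i : Fin (n + 2), (k i : ℝ) ≤ 5 * K * a := by
    intro i
    by_cases hi : i = 0
    · rw [hi, hk0, Nat.cast_zero]
      positivity
    · refine (hk i).trans ?_
      have h1i : (1 : Fin (n + 2)) ≤ i := by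
        rw [Fin.le_def]
        have : (i : ℕ) ≠ 0 := fun h => hi (Fin.ext h)
        simpa using Nat.one_le_iff_ne_zero.2 this
      have hxi := hxmono h1i
      have h2 : D / x i ≤ a := by
        rw [div_le_iff₀ (hx0 i)]
        have h3 : 1 ≤ (a : ℝ) ^ (1 / 2 - s / 2 + s / 32) * x i := by
          have h4 : x 1 * (a : ℝ) ^ (1 / 2 - s / 2 + s / 32) ≤
              x i * (a : ℝ) ^ (1 / 2 - s / 2 + s / 32) := by
            gcongr
          linarith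
        calc D = D * 1 := by ring
          _ ≤ D * ((a : ℝ) ^ (1 / 2 - s / 2 + s / 32) * x i) := by gcongr
          _ = (D * (a : ℝ) ^ (1 / 2 - s / 2 + s / 32)) * x i := by ring
          _ ≤ a * x i := by
            refine mul_le_mul_of_nonneg_right ?_ (hx0 i).le
            rw [hD, ← Real.rpow_add ha0]
            calc (a : ℝ) ^ (1 / 2 - s / 4 + (1 / 2 - s / 2 + s / 32)) ≤ (a : ℝ) ^ (1 : ℝ) :=
                Real.rpow_le_rpow_of_exponent_le (by linarith) (by linarith)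
              _ = a := Real.rpow_one _
      have h3 : D / x i + a + 3 ≤ 5 * a := by linarith
      calc K * (D / x i + a + 3) ≤ K * (5 * a) := by gcongr
        _ = 5 * K * a := by ring
  have hfin := chain_part hK1 han (by rw [← hSB]; exact e1) lam hanti hsum
    (lam_one_le (by omega) hs lam hprod) θ hθsum κ y hy0 hy hκs k nu hk0 hkle
    (fun j => by rw [← hlb]; exact hdec j) hnuanti hnu
  have hpow : ((b + 1 : ℕ) : ℝ) ^ ((n + 3) * (n + 1)) ≤ (a : ℝ) ^ (2 * ((n + 3) * (n + 1))) := by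
    rw [pow_mul (a : ℝ) 2]
    refine pow_le_pow_left₀ (by positivity) ?_ _
    exact_mod_cast hb2
  refine foulkes_of_bounds (n := n + 1) (P := (a : ℝ) ^ (2 * ((n + 3) * (n + 1))))
    (F := fP a a θ) lam ht1 ht2 (by positivity) ?_ ?_
  · rw [← hlamb]
    exact hNtf
  · refine hfin.trans ?_
    exact mul_le_mul_of_nonneg_right hpow (Nat.cast_nonneg _)

end Vale.Agent.P181.Z.H503L
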