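import Vale.Agent.P181.H403.Z.Asm3
import Vale.Agent.P181.Z.H503.PieI
import Vale.Agent.P181.Z.H582.Wall2
import Vale.Agent.P181.Z.H483.Bridge
import Vale.Agent.P181.Z.H463.Anti
import Vale.Agent.P181.Z.H235.Ana
import Vale.Agent.P181.Z.H503.CoreL

/-! The core theorem for `b` quasi-linear in `a`. -/

set_option autoImplicit false

namespace Vale.Agent.P181.Z.H503Z

open Vale.Agent.P181 Vale.Agent.P181.H280 Vale.Agent.P181.Z463 Vale.Agent.P181.Z.H582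
  Vale.Agent.P181.Z.H483 Vale.Agent.P181.H921.Z Vale.Agent.P181.H403.Asm

/-- **The analysis half**, with a free parameter `z`. -/
theorem anaZ (k E C0 : ℕ) (K : ℝ) (hK : 0 ≤ K) :
    ∃ c0 : ℝ, 1 ≤ c0 ∧ ∀ a : ℕ, 2 ≤ a → ∀ q z : ℝ, 1 ≤ q → q ^ 2 = a →
    c0 * (1 + Real.log a) ≤ z → ∀ N t : ℕ, q ^ 2 * z ^ 16 / 8 ≤ N → (N : ℝ) ≤ (a : ℝ) ^ 2 →
    q ^ 2 * z ^ 16 / 2 ≤ t →
    ∀ m : Fin (k + 2) → ℝ, (∀ i, 0 < m i) → Antitone m →
      q ^ 2 * z ^ 16 / (8 * ((k : ℝ) + 3)) ≤ m 1 →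
      ∏ i, max 1 (m i / a) ≤ q ^ 2 * z →
    ∃ x : Fin (k + 2) → ℝ, (∀ i, 0 < x i) ∧ Monotone x ∧
      (∀ i, mean (Lt a (k + 2)) x i = m i - K * (q * z ^ 2) / x i) ∧ x 1 ≤ 1 ∧
      2 ≤ x 0 * (q ^ 2 * z ^ 2) ∧ 2 ≤ x 1 * (q * z) ∧
      ∀ lam : Fin (k + 2) → ℕ,
        ∑ i, x i * ((lam i : ℝ) - m i) ≤ x 1 * (q ^ 2 * z ^ 8) →
      ∀ (J : (Fin (k + 2) → ℕ) → Prop) [DecidablePred J],
        (∀ v, J v → ∃ j : Fin (k + 2), 1 ≤ j ∧ v j ≠ 0) →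
      ∀ (f : (Fin (k + 2) → ℕ) → ℝ) (P : ℝ), 0 < P → P ≤ ((N * a + 1 : ℕ) : ℝ) ^ E →
        (∀ θ, f θ ≤ cnt (Lt a (k + 2)) N θ) →
        (∀ w, 0 < cnt (Lt a (k + 2)) N w → ∃ θ : Fin (k + 2) → ℕ,
          (∀ r : ℕ, ∑ i : Fin (k + 2), (if r ≤ (i : ℕ) then θ i else 0) ≤
            ∑ i : Fin (k + 2), (if r ≤ (i : ℕ) then w i else 0)) ∧
            (cnt (Lt a (k + 2)) N w : ℝ) ≤ P * f θ) →
        ∃ θ : Fin (k + 2) → ℕ,
          (∀ i, |x i * (m i - θ i) - K * (q * z ^ 2)| < q * z ^ 2) ∧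
          (a : ℝ) ^ C0 * ((NTs (Lt a (k + 2)) J lam t).ncard : ℝ) ≤ f θ := by
  obtain ⟨C, hC1, hnp⟩ := np (k + 2)
  have hk0 : (0 : ℝ) ≤ k := Nat.cast_nonneg k
  have hE0 : (0 : ℝ) ≤ ((E + C0 : ℕ) : ℝ) := Nat.cast_nonneg _
  set K' : ℝ := 1000 * ((k : ℝ) + 2 + 1) + C + K + (100 + 4 * (((E + C0 : ℕ) : ℝ) + ((k : ℝ) + 2)))
    with hK'
  refine ⟨K', by rw [hK']; linarith, fun a ha2 q z hq1 hqq hzz N t hN hN2 ht m hm hanti hm1 hreg => ?_⟩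
  have haR : (2 : ℝ) ≤ a := by exact_mod_cast ha2
  have hapos : (0 : ℝ) < a := by linarith
  have hlg0 : 0 ≤ Real.log (a : ℝ) := Real.log_nonneg (by linarith)
  have hle : ∀ r : ℝ, r ≤ K' → r * (1 + Real.log (a : ℝ)) ≤ z := fun r hr =>
    le_trans (mul_le_mul_of_nonneg_right hr (by linarith)) hzz
  have hle' : ∀ r : ℝ, 0 ≤ r → r ≤ K' → r ≤ z := fun r hr0 hr =>
    le_trans (by nlinarith) (hle r hr)
  have hz1 : 1000 * ((k : ℝ) + 2 + 1) * (1 + Real.log (a : ℝ)) ≤ z := hle _ (by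
    rw [hK']
    linarith)
  have hzE : (100 + 4 * (((E + C0 : ℕ) : ℝ) + ((k : ℝ) + 2))) * (1 + Real.log (a : ℝ)) ≤ z :=
    hle _ (by
      rw [hK']
      linarith)
  have hCz : C ≤ z := hle' _ (by linarith) (by
    rw [hK']
    linarith)
  have hKz : K ≤ z := hle' _ hK (by
    rw [hK']
    linarith)
  have hz0 : 0 < z := by linarith
  have hq0 : 0 < q := by linarith
  have hN0 : (0 : ℝ) < N := lt_of_lt_of_le (by positivity) hN
  have hN1 : 1 ≤ N := by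
    have : 0 < N := by exact_mod_cast hN0
    omega
  have hc0 : 0 ≤ K * (q * z ^ 2) := by positivity
  have hc4 : K * (q * z ^ 2) ≤ 4 * q * z ^ 3 := by
    have e1 : K * (q * z ^ 2) ≤ z * (q * z ^ 2) := mul_le_mul_of_nonneg_right hKz (by positivity)
    have e2 : z * (q * z ^ 2) = q * z ^ 3 := by ring
    have e3 : 0 < q * z ^ 3 := by positivity
    linarith
  obtain ⟨x, hx, hmono, hmean⟩ := H235.saddle (le_trans (by norm_num) ha2) hc0 m hm hanti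
  obtain ⟨f1, f2, f3⟩ := H235.saddle_facts (le_trans (by norm_num) ha2) hq1 hqq hC1 hnp hCz hlg0
    hz1 hc0 hc4 hx hmono hmean hm1 hreg
  refine ⟨x, hx, hmono, hmean, f1, f2, f3, ?_⟩
  intro lam hlam J _ hJ f P hP hPE h1 h2
  exact H235.point ha2 hq1 hqq hC1 hnp hCz hz1 hzE hN1 hN hN2 ht x m hx hmono hc0 hc4 hmean hm1 hreg
    lam hlam J hJ f P hP hPE h1 h2

/-- numbers -/
theorem numbersZ (n Bs : ℕ) (K : ℝ) (hK : 1 ≤ K) {a : ℕ} {q z : ℝ} (ha : 4 ≤ a)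
    (hqq : q ^ 2 = a) (hq1 : 1 ≤ q)
    (hz : 100 + (((n + 3) ^ 3 + 3 : ℕ) : ℝ) + 64 * ((n : ℝ) + 3) * K + 40 * K * Bs +
      20 * ((n : ℝ) + 3) ^ 2 ≤ z) :
      (((n + 3) ^ 3 + 3 : ℕ) : ℝ) ≤ q * z ^ 2 ∧
      8 ≤ q ^ 2 * z ^ 16 / 8 ∧
      4 * (a : ℝ) ≤ q ^ 2 * z ^ 16 / 2 ∧
      16 * ((n : ℝ) + 3) * (K * ((a : ℝ) + 3)) ≤ q ^ 2 * z ^ 16 ∧
      K * ((a : ℝ) + 3) ≤ q ^ 2 * z ^ 8 ∧
      (Bs : ℝ) * (K * ((q * z ^ 2) * (q * z) + a + 3)) ≤ q ^ 2 * z ^ 16 / 8 ∧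
      (a : ℝ) + 4 ≤ q ^ 2 * z ^ 16 / 8 ∧
      ((n : ℝ) + 3) * ((a : ℝ) ^ 2 * z ^ 8) + 4 * ((n : ℝ) + 3) ^ 2 * a ≤
        ((a : ℝ) - 1) * (q ^ 2 * z ^ 16 / 2) := by
  have hn : (0 : ℝ) ≤ n := Nat.cast_nonneg n
  have hBs : (0 : ℝ) ≤ Bs := Nat.cast_nonneg Bs
  have hG : (0 : ℝ) ≤ (((n + 3) ^ 3 + 3 : ℕ) : ℝ) := Nat.cast_nonneg _
  have hA : (4 : ℝ) ≤ a := by exact_mod_cast ha
  have hA0 : (0 : ℝ) < a := by linarith
  have hK0 : (0 : ℝ) < K := by linarith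
  generalize (((n + 3) ^ 3 + 3 : ℕ) : ℝ) = G at *
  have p1 : 0 ≤ 64 * ((n : ℝ) + 3) * K := by positivity
  have p2 : 0 ≤ 40 * K * Bs := by positivity
  have p3 : 0 ≤ 20 * ((n : ℝ) + 3) ^ 2 := by positivity
  have hz1 : 1 ≤ z := by linarith
  have hz0 : 0 < z := by linarith
  have z2 : z ≤ z ^ 2 := le_self_pow₀ hz1 (by norm_num)
  have z8 : z ≤ z ^ 8 := le_self_pow₀ hz1 (by norm_num)
  have z16 : z ≤ z ^ 16 := le_self_pow₀ hz1 (by norm_num)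
  have z3 : 1 ≤ z ^ 3 := one_le_pow₀ hz1
  have z4 : z * z ^ 3 ≤ z ^ 16 := by
    have : z * z ^ 3 = z ^ 4 := by ring
    rw [this]
    exact pow_le_pow_right₀ hz1 (by norm_num)
  have z88 : z * z ^ 8 ≤ z ^ 16 := by
    have : z * z ^ 8 = z ^ 9 := by ring
    rw [this]
    exact pow_le_pow_right₀ hz1 (by norm_num)
  have z81 : 1 ≤ z ^ 8 := one_le_pow₀ hz1
  have e16 : z * a ≤ a * z ^ 16 := by
    rw [mul_comm]
    exact mul_le_mul_of_nonneg_left z16 hA0.le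
  have e8 : z * a ≤ a * z ^ 8 := by
    rw [mul_comm]
    exact mul_le_mul_of_nonneg_left z8 hA0.le
  rw [hqq]
  have k1 : K * ((a : ℝ) + 3) ≤ 4 * K * a := by nlinarith
  have c1 : 64 * ((n : ℝ) + 3) * K * a ≤ z * a := mul_le_mul_of_nonneg_right (by linarith) hA0.le
  have c2 : 100 * (a : ℝ) ≤ z * a := mul_le_mul_of_nonneg_right (by linarith) hA0.le
  refine ⟨?_, by linarith, by linarith, ?_, ?_, ?_, by linarith, ?_⟩
  · calc G ≤ z := by linarith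
      _ ≤ z ^ 2 := z2
      _ = 1 * z ^ 2 := (one_mul _).symm
      _ ≤ q * z ^ 2 := by gcongr
  · calc 16 * ((n : ℝ) + 3) * (K * ((a : ℝ) + 3)) ≤ 16 * ((n : ℝ) + 3) * (4 * K * a) := by gcongr
      _ = 64 * ((n : ℝ) + 3) * K * a := by ring
      _ ≤ z * a := c1
      _ ≤ a * z ^ 16 := e16
  · calc K * ((a : ℝ) + 3) ≤ 4 * K * a := k1
      _ ≤ 64 * ((n : ℝ) + 3) * K * a := by
        have : 0 ≤ K * a := by positivity
        nlinarith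
      _ ≤ z * a := c1
      _ ≤ a * z ^ 8 := e8
  · have e1 : (q * z ^ 2) * (q * z) = a * z ^ 3 := by
      rw [← hqq]
      ring
    rw [e1]
    have e2 : (a : ℝ) * z ^ 3 + a + 3 ≤ 5 * (a * z ^ 3) := by nlinarith
    calc (Bs : ℝ) * (K * ((a : ℝ) * z ^ 3 + a + 3)) ≤ Bs * (K * (5 * (a * z ^ 3))) := by gcongr
      _ = (40 * K * Bs) * (a * z ^ 3) / 8 := by ring
      _ ≤ z * (a * z ^ 3) / 8 := by
        have h1 : (40 * K * Bs) * (a * z ^ 3) ≤ z * (a * z ^ 3) :=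
          mul_le_mul_of_nonneg_right (by linarith) (by positivity)
        linarith
      _ = a * (z * z ^ 3) / 8 := by ring
      _ ≤ a * z ^ 16 / 8 := by
        have h1 : (a : ℝ) * (z * z ^ 3) ≤ a * z ^ 16 := mul_le_mul_of_nonneg_left z4 hA0.le
        linarith
  · have q2 : (n : ℝ) + 3 ≤ (n + 3) ^ 2 := by nlinarith
    have h1 : ((n : ℝ) + 3) * ((a : ℝ) ^ 2 * z ^ 8) ≤ ((n : ℝ) + 3) ^ 2 * ((a : ℝ) ^ 2 * z ^ 8) := by
      gcongr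
    have h2 : 4 * ((n : ℝ) + 3) ^ 2 * a ≤ ((n : ℝ) + 3) ^ 2 * ((a : ℝ) ^ 2 * z ^ 8) := by
      have h3 : 4 * (a : ℝ) ≤ (a : ℝ) ^ 2 * z ^ 8 := by
        calc 4 * (a : ℝ) ≤ a * a := by nlinarith
          _ = (a : ℝ) ^ 2 * 1 := by ring
          _ ≤ (a : ℝ) ^ 2 * z ^ 8 := by gcongr
      calc 4 * ((n : ℝ) + 3) ^ 2 * a = ((n : ℝ) + 3) ^ 2 * (4 * a) := by ring
        _ ≤ ((n : ℝ) + 3) ^ 2 * ((a : ℝ) ^ 2 * z ^ 8) := by gcongr
    have h4 : 20 * ((n : ℝ) + 3) ^ 2 * ((a : ℝ) ^ 2 * z ^ 8) ≤ (a : ℝ) ^ 2 * z ^ 16 := by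
      calc 20 * ((n : ℝ) + 3) ^ 2 * ((a : ℝ) ^ 2 * z ^ 8) ≤ z * ((a : ℝ) ^ 2 * z ^ 8) :=
          mul_le_mul_of_nonneg_right (by linarith) (by positivity)
        _ = (a : ℝ) ^ 2 * (z * z ^ 8) := by ring
        _ ≤ (a : ℝ) ^ 2 * z ^ 16 := by gcongr
    have h5 : (a : ℝ) / 2 * (a * z ^ 16 / 2) ≤ ((a : ℝ) - 1) * (a * z ^ 16 / 2) :=
      mul_le_mul_of_nonneg_right (by linarith) (by positivity)
    have h6 : (a : ℝ) / 2 * (a * z ^ 16 / 2) = (a : ℝ) ^ 2 * z ^ 16 / 4 := by ring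
    have h7 : 0 ≤ ((n : ℝ) + 3) ^ 2 * ((a : ℝ) ^ 2 * z ^ 8) := by positivity
    linarith

/-- The chain, with the budget of letters. -/
theorem chainZ {n a b N : ℕ} {T U : ℝ} (han : n + 4 ≤ a) (hN : (N : ℝ) ≤ T / 8 + 1)
    (hb : T ≤ b) (n3 : 8 ≤ T / 8) (n8 : (a : ℝ) + 4 ≤ T / 8)
    (n9 : ((n : ℝ) + 3) * U + 4 * ((n : ℝ) + 3) ^ 2 * a ≤ ((a : ℝ) - 1) * (T / 2))
    (lam : Fin (n + 3) → ℕ) (hanti : Antitone lam) (hsum : ∑ i, lam i = b * a)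
    (hlam : (lam 1 : ℝ) ≤ U) (θ : Fin (n + 2) → ℕ) (hθsum : ∑ i, θ i ≤ N * a)
    (κ : Fin (n + 3) → ℕ) (y : Pleth (a + 4) a (n + 3)) (hy0 : y ≠ 0)
    (hy : y ∈ KH (a + 4) a (n + 3) κ) (hκs : ∑ i, κ i = (a + 4) * a)
    (k nu : Fin (n + 2) → ℕ) (hk0 : k 0 = 0)
    (hkB : ((∑ i : Fin (n + 2), k i * H914.BC (i : ℕ) : ℕ) : ℝ) ≤ T / 8)
    (hdec : ∀ j : Fin (n + 2), lam j.succ = θ j + κ j.succ + nu j + k j +
      ∑ i ∈ (Finset.univ : Finset (Fin (n + 2))).filter (fun i => j ≤ i),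
        (6 * (i : ℕ) + 2) * k i)
    (hnuanti : Antitone nu) (hnu : nu 1 + ((n + 3) ^ 3 + 3) ≤ nu 0) :
    fP N a θ ≤ ((b + 1 : ℕ) : ℝ) ^ ((n + 3) * (n + 1)) *
      (Module.finrank ℂ (KH b a (n + 3) lam) : ℝ) := by
  have hn0 : (0 : ℝ) ≤ n := Nat.cast_nonneg n
  have haR : (4 : ℝ) ≤ a := by
    have : 4 ≤ a := by omega
    exact_mod_cast this
  generalize hS : ∑ i : Fin (n + 2), k i * H914.BC (i : ℕ) = S at hkB
  have hSle : N + (a + 4) + S ≤ b := by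
    have h1 : ((N + (a + 4) + S : ℕ) : ℝ) ≤ b := by
      push_cast
      linarith
    exact_mod_cast h1
  obtain ⟨Bnu, hBnu⟩ : ∃ Bnu : ℕ, N + (a + 4) + Bnu + S = b := ⟨b - (N + (a + 4) + S), by omega⟩
  have hBnuR : T / 2 ≤ Bnu := by
    have h1 : ((N + (a + 4) + Bnu + S : ℕ) : ℝ) = b := by
      exact_mod_cast hBnu
    push_cast at h1
    linarith
  have hcart : (n + 3) * nu 0 + 4 * (n + 3) ^ 2 * a ≤ (a - 1) * Bnu := by
    have h1 : nu 0 ≤ lam 1 := by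
      have h2 := hdec 0
      have h3 : lam (Fin.succ (0 : Fin (n + 2))) = lam 1 := rfl
      rw [h3] at h2
      omega
    have h2 : (nu 0 : ℝ) ≤ U := by
      refine le_trans ?_ hlam
      exact_mod_cast h1
    have h3 : ((n : ℝ) + 3) * nu 0 + 4 * ((n : ℝ) + 3) ^ 2 * a ≤ ((a : ℝ) - 1) * Bnu := by
      have h4 : ((n : ℝ) + 3) * nu 0 ≤ ((n : ℝ) + 3) * U :=
        mul_le_mul_of_nonneg_left h2 (by linarith)
      have h5 : ((a : ℝ) - 1) * (T / 2) ≤ ((a : ℝ) - 1) * Bnu :=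
        mul_le_mul_of_nonneg_left hBnuR (by linarith)
      linarith
    have h6 : (((n + 3) * nu 0 + 4 * (n + 3) ^ 2 * a : ℕ) : ℝ) ≤ (((a - 1) * Bnu : ℕ) : ℝ) := by
      push_cast [Nat.cast_sub (show 1 ≤ a by omega)]
      exact h3
    exact_mod_cast h6
  have hlamsum : ∑ i : Fin (n + 2), lam i.succ ≤ b * a := by
    have h5 := hsum
    rw [Fin.sum_univ_succ] at h5
    omega
  have hfin := wall_run' (n := n) (N := N) (a := a) (b := b) H914.BC (fun j => 6 * j + 2)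
    (H503S.pieH_C (by omega)) (fun j _ => H503S.BC_bound (by omega)) (by omega) κ hκs
    (fun N θ0 => plethMult_le_KH hy hy0) θ hθsum (fun i => lam i.succ) hlamsum
    (fun i j hij => hanti (Fin.succ_le_succ_iff.2 hij)) k nu hk0 hdec hnuanti hnu Bnu
    (by rw [hS]; exact hBnu) hcart
  have hfull : full b a (fun i => lam i.succ) = lam := by
    unfold full up
    funext i
    refine Fin.cases ?_ (fun i => ?_) i
    · have h5 := hsum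
      rw [Fin.sum_univ_succ] at h5
      show b * a - ∑ i : Fin (n + 2), lam i.succ = lam 0
      omega
    · rw [Fin.cons_succ]
  rw [hfull] at hfin
  exact hfin

/-- **The core theorem**, with a free parameter `z`. -/
theorem coreQ (n : ℕ) :
    ∃ (c0 : ℝ) (a0 : ℕ), 1 ≤ c0 ∧ ∀ a : ℕ, a0 ≤ a → ∀ q z : ℝ, 1 ≤ q → q ^ 2 = a →
      c0 * (1 + Real.log a) ≤ z → ∀ b : ℕ, q ^ 2 * z ^ 16 ≤ b → b + 1 ≤ a ^ 2 →
      ∀ lam : Fin (n + 3) → ℕ, Antitone lam → (∀ i, 0 < lam i) → ∑ i, lam i = b * a →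
      ∏ i : Fin (n + 2), max 1 ((lam i.succ : ℝ) / a) ≤ q ^ 2 * z →
      (lam 1 : ℝ) ≤ (a : ℝ) ^ 2 * z ^ 8 →
      plethMult a b (n + 3) lam ≤ plethMult b a (n + 3) lam := by
  classical
  obtain ⟨a1, ha1def⟩ : ∃ a1 : ℕ, a1 = n + 4 := ⟨_, rfl⟩
  obtain ⟨K, hK1, hBr⟩ := bridge n (∑ i ∈ Finset.range (n + 2), (6 * i + 2))
  obtain ⟨c0, hc01, hA⟩ := anaZ n ((n + 3) * (n + 3)) (2 * ((n + 3) * (n + 1))) K (by linarith)
  obtain ⟨cn, hcn⟩ : ∃ cn : ℝ, cn = 100 + (((n + 3) ^ 3 + 3 : ℕ) : ℝ) + 64 * ((n : ℝ) + 3) * K +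
    40 * K * ((∑ i : Fin (n + 2), H914.BC (i : ℕ) : ℕ) : ℝ) + 20 * ((n : ℝ) + 3) ^ 2 := ⟨_, rfl⟩
  have hcn0 : 0 ≤ cn := by rw [hcn]; positivity
  refine ⟨c0 + cn, n + 4, by linarith, fun a ha q z hq1 hqq hzz b hb hb2 lam hanti hpos hsum hprod
    hlam => ?_⟩
  have ha1 : a1 ≤ a := by omega
  have ha2' : 2 ≤ a := by omega
  have h1a : 1 ≤ a := by omega
  have haR : (1 : ℝ) ≤ a := by exact_mod_cast h1a
  have ha0 : (0 : ℝ) < a := by linarith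
  have hlog : 0 ≤ Real.log a := Real.log_nonneg haR
  have hzc0 : c0 * (1 + Real.log a) ≤ z := by nlinarith
  have hzcn : cn ≤ z := by nlinarith
  have hz0 : 0 < z := by
    have h1 : c0 * 1 ≤ c0 * (1 + Real.log a) := mul_le_mul_of_nonneg_left (by linarith) (by linarith)
    linarith
  obtain ⟨num2, num3, num4, num5, num6, num7, num8, num9⟩ :=
    numbersZ (z := z) n (∑ i : Fin (n + 2), H914.BC (i : ℕ)) K hK1 (by omega) hqq hq1
      (by rw [← hcn]; exact hzcn)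
  have num10 : q ^ 2 * z ^ 16 ≤ (a : ℝ) ^ 2 := by
    have h1 : ((b + 1 : ℕ) : ℝ) ≤ ((a ^ 2 : ℕ) : ℝ) := by exact_mod_cast hb2
    push_cast at h1
    linarith
  -- `b` is large
  have hbig : 8 * (a : ℝ) ≤ b := by linarith
  have hbigN : 8 * a ≤ b := by exact_mod_cast hbig
  obtain ⟨t, ht⟩ : ∃ t : ℕ, t = b + 3 - 2 * a := ⟨_, rfl⟩
  have ht1 : 2 * a + t ≤ b + 3 := by omega
  have ht2 : t ≤ b := by omega
  have htR : (q ^ 2 * z ^ 16) / 2 ≤ t := by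
    have h1 : (b : ℝ) - 2 * a ≤ t := by
      have : b ≤ t + 2 * a := by omega
      have h2 : (b : ℝ) ≤ t + 2 * a := by exact_mod_cast this
      linarith
    linarith
  obtain ⟨lamb, hlamb⟩ : ∃ lamb : Fin (n + 2) → ℕ, lamb = fun i => lam i.succ := ⟨_, rfl⟩
  have hlb : ∀ i, lamb i = lam i.succ := fun i => by rw [hlamb]
  have hantib : Antitone lamb := fun i j hij => by
    rw [hlb, hlb]
    exact hanti (Fin.succ_le_succ_iff.2 hij)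
  have hposb : ∀ i, 0 < lamb i := fun i => by rw [hlb]; exact hpos _
  have hKH := KH_le_NTs (n := n + 1) (a := a) (b := b) lam ht1 ht2
  rw [← hlamb] at hKH
  by_cases hNt : (NTs (Lt a (n + 2)) (fun v => ∃ i : Fin (n + 1), v i.succ ≠ 0) lamb t).ncard = 0
  · apply H530.Alg.foulkes_of_ker
    exact hKH.trans (by rw [hNt]; exact Nat.zero_le _)
  obtain ⟨s, hs⟩ := Set.nonempty_of_ncard_ne_zero hNt
  have ht3 : t ≤ ∑ i : Fin (n + 1), lamb i.succ := by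
    have h1 := hs.2.2.trans (card_filter_le s)
    rwa [hs.2.1] at h1
  have ht4 : t ≤ (n + 1) * lamb 1 := by
    refine ht3.trans ?_
    calc ∑ i : Fin (n + 1), lamb i.succ ≤ ∑ _i : Fin (n + 1), lamb 1 := by
          refine Finset.sum_le_sum fun i _ => hantib ?_
          rw [Fin.le_def]
          simp
      _ = (n + 1) * lamb 1 := by simp
  have ht5 : (q ^ 2 * z ^ 16) / 2 ≤ ((n : ℝ) + 1) * lamb 1 := by
    have : (t : ℝ) ≤ ((n : ℝ) + 1) * lamb 1 := by exact_mod_cast ht4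
    linarith
  have hn0 : (0 : ℝ) ≤ n := Nat.cast_nonneg n
  have ht6 : (q ^ 2 * z ^ 16) / (2 * ((n : ℝ) + 3)) ≤ lamb 1 := by
    rw [div_le_iff₀ (by positivity)]
    have h1 : (0 : ℝ) ≤ lamb 1 := Nat.cast_nonneg _
    nlinarith
  have hKa : K * ((a : ℝ) + 3) ≤ (q ^ 2 * z ^ 16) / (16 * ((n : ℝ) + 3)) := by
    rw [le_div_iff₀ (by positivity)]
    linarith
  have hT0 : 0 < (q ^ 2 * z ^ 16) := by positivity
  have hfr : (q ^ 2 * z ^ 16) / (16 * ((n : ℝ) + 3)) ≤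
      (q ^ 2 * z ^ 16) / (2 * ((n : ℝ) + 3)) - (q ^ 2 * z ^ 16) / (8 * ((n : ℝ) + 3)) := by
    have h1 : (q ^ 2 * z ^ 16) / (2 * ((n : ℝ) + 3)) - (q ^ 2 * z ^ 16) / (8 * ((n : ℝ) + 3)) =
        6 * ((q ^ 2 * z ^ 16) / (16 * ((n : ℝ) + 3))) := by
      field_simp
      ring
    rw [h1]
    have h2 : 0 ≤ (q ^ 2 * z ^ 16) / (16 * ((n : ℝ) + 3)) := by positivity
    linarith
  have hfr2 : (0 : ℝ) < (q ^ 2 * z ^ 16) / (8 * ((n : ℝ) + 3)) := by positivity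
  have hlam1 : K * ((a : ℝ) + 3) < lamb 1 := by linarith
  -- the bridge
  obtain ⟨D, hD⟩ : ∃ D : ℝ, D = (q * z ^ 2) := ⟨_, rfl⟩
  have hD0 : 0 < D := by rw [hD]; positivity
  obtain ⟨m, hm0, hmanti, hmle, hmge, hbr⟩ := hBr (fun i => 6 * (i : ℕ) + 2)
    (fun i => Finset.single_le_sum (f := fun i => 6 * i + 2) (fun _ _ => Nat.zero_le _)
      (Finset.mem_range.2 i.2)) ((n + 3) ^ 3 + 3) a (by
        have : 1 ≤ (n + 3) ^ 3 := Nat.one_le_pow _ _ (by omega)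
        omega) lamb hantib hlam1 hposb (K * D) D hD0 le_rfl
  -- the analysis
  obtain ⟨N, hNdef⟩ : ∃ N : ℕ, N = ⌈(q ^ 2 * z ^ 16) / 8⌉₊ := ⟨_, rfl⟩
  have hN1 : (q ^ 2 * z ^ 16) / 8 ≤ N := by rw [hNdef]; exact Nat.le_ceil _
  have hN2 : (N : ℝ) ≤ (q ^ 2 * z ^ 16) / 8 + 1 := by
    rw [hNdef]
    exact (Nat.ceil_lt_add_one (by positivity)).le
  have hN3 : (N : ℝ) ≤ (a : ℝ) ^ 2 := by linarith
  obtain ⟨x, hx0, hxmono, hxmean, hx1, hx0b, hx1b, hx⟩ := hA a ha2' q z hq1 hqq hzc0 N t hN1 hN3 htR m hm0 hmanti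
    (by have := hmge 1; linarith) (by
      refine le_trans ?_ hprod
      refine Finset.prod_le_prod (fun i _ => le_trans zero_le_one (le_max_left _ _)) fun i _ => ?_
      refine max_le_max le_rfl ?_
      have h1 := hmle i
      rw [hlb] at h1
      gcongr)
  rw [← hD] at hxmean
  obtain ⟨hprice, hbr2⟩ := hbr x hx0 hxmono hxmean (by
    have h1 : (((n + 3) ^ 3 + 3 : ℕ) : ℝ) * x 1 ≤ (((n + 3) ^ 3 + 3 : ℕ) : ℝ) * 1 := by gcongr
    rw [hD]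
    linarith)
  obtain ⟨θ, hθ, hNtf⟩ := hx lamb (by
      refine hprice.trans ?_
      rw [mul_comm]
      exact mul_le_mul_of_nonneg_left num6 (hx0 1).le)
    (fun v => ∃ i : Fin (n + 1), v i.succ ≠ 0)
    (fun v ⟨i, hi⟩ => ⟨i.succ, by rw [Fin.le_def]; simp, hi⟩) (fP N a)
    (((N * a + 1 : ℕ) : ℝ) ^ ((n + 3) * (n + 3))) (by positivity) le_rfl
    (fun θ => fP_le N a θ) (fun w hw => exists_fP N a w hw)
  rw [← hD] at hθ
  -- the kernel element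
  obtain ⟨κ, y, hy0, hy, hκanti, hκs, hκ1, hκ2, hκ3⟩ := exists_eqC n a ha2'
  obtain ⟨k, nu, hk0, hdec, hnuanti, hnu, hk⟩ := hbr2 θ (fun i => κ i.succ)
    (by
      have : κ (Fin.succ (0 : Fin (n + 2))) = κ 1 := rfl
      rw [this]; omega)
    (by
      have : κ (Fin.succ (1 : Fin (n + 2))) = κ 2 := by congr 1
      rw [this]; exact hκ2)
    (fun i hi => hκ3 _ (by
      rw [Fin.val_succ]
      omega)) hθ
  -- the sum of `θ`
  have hNtpos : (0 : ℝ) < ((NTs (Lt a (n + 2)) (fun v => ∃ i : Fin (n + 1), v i.succ ≠ 0)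
      lamb t).ncard : ℝ) := by
    exact_mod_cast Nat.pos_of_ne_zero hNt
  have hfpos : 0 < fP N a θ := lt_of_lt_of_le (by positivity) hNtf
  have hθsum : ∑ i, θ i ≤ N * a := by
    by_contra hcon
    rw [fP, if_neg hcon] at hfpos
    exact lt_irrefl _ hfpos
  -- the budget
  have hkB : ((∑ i : Fin (n + 2), k i * H914.BC (i : ℕ) : ℕ) : ℝ) ≤ (q ^ 2 * z ^ 16) / 8 := by
    refine le_trans ?_ num7
    push_cast
    rw [Finset.sum_mul]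
    refine Finset.sum_le_sum fun i _ => ?_
    rw [mul_comm]
    refine mul_le_mul_of_nonneg_left ?_ (Nat.cast_nonneg _)
    by_cases hi : i = 0
    · rw [hi, hk0]
      have : (0 : ℝ) ≤ K * ((q * z ^ 2) * (q * z) + a + 3) := by
        positivity
      simpa using this
    · refine (hk i).trans ?_
      have h1i : (1 : Fin (n + 2)) ≤ i := by
        rw [Fin.le_def]
        have : (i : ℕ) ≠ 0 := fun h => hi (Fin.ext h)
        simpa using Nat.one_le_iff_ne_zero.2 this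
      have hxi := hxmono h1i
      have h2 : D / x i ≤ (q * z ^ 2) * (q * z) := by
        rw [← hD, div_le_iff₀ (hx0 i)]
        have h3 : 1 ≤ (q * z) * x i := by
          have h4 : x 1 * (q * z) ≤ x i * (q * z) := by
            gcongr
          linarith
        calc D = D * 1 := by ring
          _ ≤ D * ((q * z) * x i) := by gcongr
          _ = _ := by ring
      gcongr
  have hfin := chainZ (T := q ^ 2 * z ^ 16) (U := (a : ℝ) ^ 2 * z ^ 8) ha hN2 hb num3 num8 num9 lam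
    hanti hsum hlam θ hθsum κ y hy0 hy hκs k nu hk0 hkB (fun j => by rw [← hlb]; exact hdec j)
    hnuanti hnu
  have hpow : ((b + 1 : ℕ) : ℝ) ^ ((n + 3) * (n + 1)) ≤ (a : ℝ) ^ (2 * ((n + 3) * (n + 1))) := by
    rw [pow_mul (a : ℝ) 2]
    refine pow_le_pow_left₀ (by positivity) ?_ _
    exact_mod_cast hb2
  refine foulkes_of_bounds (n := n + 1) (P := (a : ℝ) ^ (2 * ((n + 3) * (n + 1))))
    (F := fP N a θ) lam ht1 ht2 (by positivity) ?_ ?_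
  · rw [← hlamb]
    exact hNtf
  · refine hfin.trans ?_
    exact mul_le_mul_of_nonneg_right hpow (Nat.cast_nonneg _)



/-- **The core theorem for `b` quasi-linear in `a`.** -/
theorem coreZ (n : ℕ) :
    ∃ (c0 : ℝ) (a0 : ℕ), 1 ≤ c0 ∧ ∀ a : ℕ, a0 ≤ a → ∀ z : ℝ,
      c0 * (1 + Real.log a) ≤ z → ∀ b : ℕ, (a : ℝ) * z ^ 16 ≤ b → b + 1 ≤ a ^ 2 →
      ∀ lam : Fin (n + 3) → ℕ, Antitone lam → (∀ i, 0 < lam i) → ∑ i, lam i = b * a →
      ∏ i : Fin (n + 2), max 1 ((lam i.succ : ℝ) / a) ≤ a * z →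
      (lam 1 : ℝ) ≤ (a : ℝ) ^ 2 * z ^ 8 →
      plethMult a b (n + 3) lam ≤ plethMult b a (n + 3) lam := by
  obtain ⟨c0, a0, hc0, h⟩ := coreQ n
  refine ⟨c0, max a0 1, hc0, fun a ha z hz b hb hb2 lam hanti hpos hsum hprod hlam => ?_⟩
  have ha1 : (1 : ℝ) ≤ a := by exact_mod_cast (le_max_right a0 1).trans ha
  have hqq : √(a : ℝ) ^ 2 = a := Real.sq_sqrt (by linarith)
  exact h a ((le_max_left a0 1).trans ha) (√(a : ℝ)) z (Real.one_le_sqrt.2 ha1) hqq hz b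
    (by rw [hqq]; exact hb) hb2 lam hanti hpos hsum (by rw [hqq]; exact hprod) hlam

end Vale.Agent.P181.Z.H503Z
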