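import Vale.Agent.P181.Z.H503.CoreL
import Vale.Agent.P181.Z.H328.AnaL

/-! The core theorem for `b` linear in `a`. -/

set_option autoImplicit false

namespace Vale.Agent.P181.Z.H503L

open Vale.Agent.P181 Vale.Agent.P181.H280

theorem anal (k : ℕ) : ANAL k := fun E C0 _ hs hs1 K hK => H328.anaL k E C0 hs hs1 K hK

/-- **The core theorem for `b` linear in `a`.** -/
theorem coreL (n : ℕ) {s : ℝ} (hs : 0 < s) (hs' : s < 1 / 4) :
    ∃ (C : ℝ) (a0 : ℕ), ∀ a : ℕ, a0 ≤ a → ∀ b : ℕ, C * (a : ℝ) ≤ b → b + 1 ≤ a ^ 2 →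
      ∀ lam : Fin (n + 3) → ℕ, Antitone lam → (∀ i, 0 < lam i) → ∑ i, lam i = b * a →
      ∏ i : Fin (n + 2), max 1 ((lam i.succ : ℝ) / a) ≤ (a : ℝ) ^ (1 - ((n : ℝ) + 3) * s) →
      plethMult a b (n + 3) lam ≤ plethMult b a (n + 3) lam :=
  coreL_of (anal n) hs hs'

end Vale.Agent.P181.Z.H503L
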