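import Vale.Agent.P181.Z.H592.Wt
import Vale.Agent.P181.Z.H503.S1
import Vale.Agent.P181.Z.H582.WGlue
import Vale.Agent.P181.Z.H463.Ideal

/-! The Pieri step for the kernels, in the form used by the chain. -/

set_option autoImplicit false

namespace Vale.Agent.P181.Z.H503S

open MvPolynomial Vale.Agent.P181 Vale.Agent.P181.H280 Vale.Agent.P181.H530.Torus
  Vale.Agent.P181.T4 Vale.Agent.P181.FR Vale.Agent.P181.Z.H592 Vale.Agent.P181.Z.H503P
  Vale.Agent.P181.Z463

variable {n : ℕ}

/-- The covariants from highest weight vectors. -/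
theorem cov_of {m B a c : ℕ} (hm : m < n) {nu : Fin n → ℕ} {l : Fin m → A n}
    (hl : ∀ r, l r ∈ HA n B a nu) (h1 : ∀ h : 1 < n, nu ⟨1, h⟩ = c + 1)
    (h2 : ∀ j : Fin n, 2 ≤ (j : ℕ) → (j : ℕ) ≤ m → nu j = c)
    (hdet : Matrix.det (Matrix.of fun r j : Fin m => H592.cov hm (l r) j) ≠ 0) :
    Cov n m B a (fun i => nu i - if (i : ℕ) = 1 then 1 else 0)
      (fun r j => H592.cov hm (l r) j) := by
  have h2' : ∀ j : Fin m, j.val ≠ 0 → nu (row hm j) = c := by
    intro j hj
    apply h2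
    · change 2 ≤ j.val + 1
      omega
    · change j.val + 1 ≤ m
      omega
  have hc : ∀ i : Fin n, 1 ≤ (i : ℕ) → (i : ℕ) ≤ m →
      (nu i - if (i : ℕ) = 1 then 1 else 0) = c := by
    intro i hi hi'
    by_cases h : (i : ℕ) = 1
    · have h3 : 1 < n := by
        have := i.2
        omega
      have h4 : i = ⟨1, h3⟩ := Fin.ext h
      rw [if_pos h, h4, h1 h3]
      omega
    · rw [if_neg h, h2 i (by omega) hi']
      omega
  refine ⟨hm, fun p q hpq r j => ?_, fun r j => ?_, fun i j hi hi' hj hj' => ?_, hdet⟩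
  · rw [cov_raise hm (hl r) h1 h2' j hpq]
    by_cases h : (q : ℕ) = j + 1 ∧ 1 ≤ (p : ℕ)
    · rw [dif_pos h, dif_pos ⟨h.2, Fin.ext h.1⟩]
    · rw [dif_neg h, dif_neg (fun hh => h ⟨congrArg Fin.val hh.2, hh.1⟩)]
  · have h3 := cov_mem_WA hm (mem_HA.1 (hl r)).1 h1 j
    have e : (fun i : Fin n => (nu i - if (i : ℕ) = 1 then 1 else 0) +
        if (i : ℕ) = (j : ℕ) + 1 then 1 else 0) =
        (fun r : Fin n => (nu r - (if r.val = 1 then 1 else 0)) +
          (if r = row hm j then 1 else 0)) := by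
      funext i
      congr 1
      by_cases h : (i : ℕ) = (j : ℕ) + 1
      · rw [if_pos h, if_pos (Fin.ext h)]
      · rw [if_neg h, if_neg (fun hh => h (congrArg Fin.val hh))]
    rw [e]
    exact h3
  · rw [hc i hi hi', hc j hj hj']

/-- What is needed from the covariants: `m` highest weight vectors of the weight
`(.., c + 1, c, .., c, 0, ..)`. -/
def CovStmt (n a m B c : ℕ) : Prop := ∃ (hm : m < n) (nu : Fin n → ℕ) (l : Fin m → A n),
  (∀ r, l r ∈ HA n B a nu) ∧ (∀ h : 1 < n, nu ⟨1, h⟩ = c + 1) ∧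
  (∀ j : Fin n, 2 ≤ (j : ℕ) → (j : ℕ) ≤ m → nu j = c) ∧ (∀ j : Fin n, m < (j : ℕ) → nu j = 0) ∧
  Matrix.det (Matrix.of fun r j : Fin m => H592.cov hm (l r) j) ≠ 0

/-- The sum of the entries of the Pieri weight. -/
lemma sum_rho (h c r j : ℕ) (hj : j + 1 ≤ h) (hj1 : 1 ≤ j) :
    ∑ i, H582.rho h c r j i = r + (j + 1) * c + 1 := by
  rw [Fin.sum_univ_succ]
  have e0 : H582.rho h c r j 0 = r := by simp [H582.rho]
  have e1 : ∀ i : Fin h, H582.rho h c r j i.succ =
      (if (i : ℕ) < j + 1 then c else 0) + (if (i : ℕ) = j then 1 else 0) := by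
    intro i
    simp only [H582.rho, Fin.val_succ]
    rw [if_neg (by omega)]
    split_ifs <;> omega
  rw [e0, Finset.sum_congr rfl (fun i _ => e1 i), Finset.sum_add_distrib]
  have e2 : ∑ i : Fin h, (if (i : ℕ) < j + 1 then c else 0) = (j + 1) * c := by
    rw [Fin.sum_univ_eq_sum_range (fun i => if i < j + 1 then c else 0) h, ← Finset.sum_filter,
      Finset.sum_const, smul_eq_mul]
    congr 1
    have : (Finset.range h).filter (fun i => i < j + 1) = Finset.range (j + 1) := by
      ext x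
      simp only [Finset.mem_filter, Finset.mem_range]
      omega
    rw [this, Finset.card_range]
  have e3 : ∑ i : Fin h, (if (i : ℕ) = j then 1 else 0) = 1 := by
    rw [Fin.sum_univ_eq_sum_range (fun i => if i = j then 1 else 0) h, Finset.sum_ite_eq',
      if_pos (Finset.mem_range.2 (by omega))]
  rw [e2, e3]
  ring

/-- The Pieri step for `KH`. -/
theorem pie_of {a B c j : ℕ} (hj : 1 ≤ j) (hj' : j < n + 2) (hcov : CovStmt (n + 3) a (j + 1) B c)
    (I : Submodule ℂ (A (n + 3))) (hIE : ∀ s i, ∀ f ∈ I, E s i f ∈ I)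
    (hIm : ∀ f ∈ I, ∀ g, f * g ∈ I)
    (hKH : ∀ (N : ℕ) (θ : Fin (n + 3) → ℕ), Module.finrank ℂ (KH N a (n + 3) θ) =
      Module.finrank ℂ ↥(HA (n + 3) N a θ ⊓ I))
    (k b : ℕ) (θ : Fin (n + 3) → ℕ)
    (hanti : ∀ l, (hl : l + 1 < n + 2) → θ ⟨l + 2, by omega⟩ ≤ θ ⟨l + 1, by omega⟩)
    (hk : θ ⟨j + 1, by omega⟩ + k ≤ θ ⟨j, by omega⟩) :
    (j + 1) * c + 1 ≤ a * B ∧
    Module.finrank ℂ (KH b a (n + 3) θ) ≤ (k + 1) ^ (n + 3) *
      Module.finrank ℂ (KH (b + k * B) a (n + 3)
        (θ + k • H582.rho (n + 2) c (a * B - ((j + 1) * c + 1)) j)) := by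
  obtain ⟨hm, nu, l, hl, h1, h2, h3, hdet⟩ := hcov
  have hC := cov_of hm hl h1 h2 hdet
  have hj2 : j + 1 < n + 3 := by omega
  -- the total
  have hne : ∃ r, l r ≠ 0 := by
    by_contra h
    push Not at h
    apply hdet
    have e : (Matrix.of fun r t : Fin (j + 1) => H592.cov hm (l r) t) = 0 := by
      ext1 r t
      simp only [Matrix.of_apply, Matrix.zero_apply]
      rw [h r, H592.cov]
      split_ifs
      · rfl
      · exact map_zero _
    rw [e]
    exact Matrix.det_zero
  have htot : ∑ i, nu i = B * a := by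
    obtain ⟨r, hr⟩ := hne
    obtain ⟨d, hd⟩ := MvPolynomial.ne_zero_iff.1 hr
    exact MS_total ((mem_HA.1 (hl r)).1 d hd)
  -- the weight
  have hw : ∀ i : Fin (n + 3), (i : ℕ) ≠ 0 →
      (nu i - if (i : ℕ) = 1 then 1 else 0) + (if (i : ℕ) = j + 1 then 1 else 0) =
      H582.rho (n + 2) c (nu 0) j i := by
    intro i hi
    simp only [H582.rho]
    rw [if_neg hi]
    rcases lt_or_ge (j + 1) (i : ℕ) with h | h
    · rw [h3 i h, if_neg (show ¬ (i : ℕ) ≤ j by omega), if_neg (show ¬ (i : ℕ) = j + 1 by omega),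
        if_neg (show ¬ (i : ℕ) = j + 1 by omega)]
      omega
    · have hci : (nu i - if (i : ℕ) = 1 then 1 else 0) = c := by
        by_cases h' : (i : ℕ) = 1
        · have h4 : i = ⟨1, by omega⟩ := Fin.ext h'
          rw [if_pos h', h4, h1 (by omega)]
          omega
        · rw [if_neg h', h2 i (by omega) h]
          omega
      rw [hci]
      rcases Nat.lt_or_ge j i with h5 | h5
      · have h6 : (i : ℕ) = j + 1 := by omega
        rw [if_pos h6, if_neg (by omega), if_pos h6]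
      · rw [if_neg (by omega), if_pos h5]
        omega
  have hw0 : ∀ i : Fin (n + 3), (nu i - if (i : ℕ) = 1 then 1 else 0) +
      (if (i : ℕ) = j + 1 then 1 else 0) = H582.rho (n + 2) c (nu 0) j i := by
    intro i
    by_cases hi : (i : ℕ) = 0
    · have h4 : i = 0 := Fin.ext hi
      subst h4
      simp [H582.rho]
    · exact hw i hi
  have hnu0 : nu 0 + ((j + 1) * c + 1) = a * B := by
    have h4 := sum_rho (n + 2) c (nu 0) j (by omega) hj
    have h5 : ∑ i : Fin (n + 3), ((nu i - if (i : ℕ) = 1 then 1 else 0) +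
        (if (i : ℕ) = j + 1 then 1 else 0)) = B * a := by
      have h6 : ∑ i : Fin (n + 3), (((nu i - if (i : ℕ) = 1 then 1 else 0) +
        (if (i : ℕ) = j + 1 then 1 else 0)) + (if (i : ℕ) = 1 then 1 else 0)) =
          ∑ i : Fin (n + 3), (nu i + (if (i : ℕ) = j + 1 then 1 else 0)) := by
        refine Finset.sum_congr rfl (fun i _ => ?_)
        by_cases h' : (i : ℕ) = 1
        · have h7 : nu i = c + 1 := by
            have h8 : i = ⟨1, by omega⟩ := Fin.ext h'
            rw [h8]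
            exact h1 (by omega)
          rw [if_pos h', h7]
          omega
        · rw [if_neg h']
          omega
      simp only [Finset.sum_add_distrib] at h6 ⊢
      rw [htot] at h6
      have h9 : ∑ i : Fin (n + 3), (if (i : ℕ) = 1 then 1 else 0) = 1 := by
        rw [Fin.sum_univ_eq_sum_range (fun i => if i = 1 then 1 else 0) (n + 3),
          Finset.sum_ite_eq', if_pos (Finset.mem_range.2 (by omega))]
      have h10 : ∑ i : Fin (n + 3), (if (i : ℕ) = j + 1 then 1 else 0) = 1 := by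
        rw [Fin.sum_univ_eq_sum_range (fun i => if i = j + 1 then 1 else 0) (n + 3),
          Finset.sum_ite_eq', if_pos (Finset.mem_range.2 (by omega))]
      omega
    rw [Finset.sum_congr rfl (fun i _ => hw0 i), h4] at h5
    rw [Nat.mul_comm a B, ← h5]
    ring
  refine ⟨by omega, ?_⟩
  rw [hKH, hKH]
  have hmono : ∀ (d t : ℕ) (h : t + 1 + d < n + 3), θ ⟨t + 1 + d, h⟩ ≤ θ ⟨t + 1, by omega⟩ := by
    intro d
    induction d with
    | zero => intro t h; exact le_rfl
    | succ d ih =>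
      intro t h
      have h4 := hanti (t + d) (by omega)
      have e1 : (⟨t + d + 2, by omega⟩ : Fin (n + 3)) = ⟨t + 1 + (d + 1), h⟩ :=
        Fin.ext (by simp only []; omega)
      have e2 : (⟨t + d + 1, by omega⟩ : Fin (n + 3)) = ⟨t + 1 + d, by omega⟩ :=
        Fin.ext (by simp only []; omega)
      rw [e1, e2] at h4
      exact h4.trans (ih t (by omega))
  have hS := s1 (k := k) (θ := θ) hC (fun t ht ht' i hi => ?_) I hIE hIm (N := b)
  · refine hS.trans ?_
    have e : (fun i : Fin (n + 3) => θ i + k * ((nu i - if (i : ℕ) = 1 then 1 else 0) +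
        if (i : ℕ) = j + 1 then 1 else 0)) =
        θ + k • H582.rho (n + 2) c (a * B - ((j + 1) * c + 1)) j := by
      funext i
      rw [hw0 i]
      have : nu 0 = a * B - ((j + 1) * c + 1) := by omega
      rw [this]
      rfl
    rw [e]
    exact Nat.mul_le_mul_right _ (Nat.pow_le_pow_right (by omega) (by omega))
  · have e1 : i = ⟨j + 1, by omega⟩ := Fin.ext hi
    have h4 := hmono (j - t) ((t : ℕ) - 1) (by omega)
    have e2 : (⟨(t : ℕ) - 1 + 1 + (j - t), by omega⟩ : Fin (n + 3)) = ⟨j, by omega⟩ :=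
      Fin.ext (by simp only []; omega)
    have e3 : (⟨(t : ℕ) - 1 + 1, by omega⟩ : Fin (n + 3)) = t := Fin.ext (by simp only []; omega)
    rw [e2, e3] at h4
    rw [e1]
    exact hk.trans h4

end Vale.Agent.P181.Z.H503S
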