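import Vale.Agent.P181.R2.H822.FR9
import Vale.Agent.P181.R2.H130.R10
import Vale.Agent.P181.R2.H539.Eb

/-! Weight multiplicities against highest weight multiplicities in `Sym^b(Sym^a ℂ^m)`. -/

set_option autoImplicit false

open scoped TensorProduct

namespace Vale.Agent.P181.Z

open Vale.Agent.P181 Vale.Agent.P181.H280 Vale.Agent.P181.H54 Vale.Agent.P181.FR
  Vale.Agent.P181.FR.H130 MvPolynomial

/-- `u` lies in the span of `e_0, .., e_(s-1)`. -/
def InF {m : ℕ} (s : ℕ) (u : Fin m → ℂ) : Prop := ∀ i : Fin m, s ≤ (i : ℕ) → u i = 0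

/-- Span of the products of products in which, for every `s`, at least `h s` of the vectors lie in
the span of `e_0, .., e_(s-1)`. -/
noncomputable def Emu (b a m : ℕ) (h : ℕ → ℕ) : Submodule ℂ (Pleth b a m) :=
  Submodule.span ℂ {x | ∃ v : Fin b → Fin a → (Fin m → ℂ),
    (∀ s, ∃ S : Finset (Fin b × Fin a), h s ≤ S.card ∧ ∀ p ∈ S, InF s (v p.1 p.2)) ∧
    x = SymmetricPower.tprod ℂ (fun j => SymmetricPower.tprod ℂ (v j))}

lemma InF_borel {m : ℕ} {g : Matrix (Fin m) (Fin m) ℂ} (hg : IsBorel g) {s : ℕ}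
    {u : Fin m → ℂ} (hu : InF s u) : InF s (Matrix.toLin' g u) := by
  intro i hi
  rw [Matrix.toLin'_apply, Matrix.mulVec, dotProduct]
  refine Finset.sum_eq_zero (fun j _ => ?_)
  by_cases hji : j < i
  · rw [hg.1 i j hji, zero_mul]
  · rw [hu j (hi.trans (Fin.le_def.1 (not_lt.1 hji))), mul_zero]

theorem Emu_stable {b a m : ℕ} {h : ℕ → ℕ} : ∀ g, IsBorel g → ∀ x ∈ Emu b a m h,
    plethAct b a m g x ∈ Emu b a m h := by
  intro g hg x hx
  induction hx using Submodule.span_induction with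
  | mem x hm =>
    obtain ⟨v, hv, rfl⟩ := hm
    refine Submodule.subset_span ⟨fun j i => Matrix.toLin' g (v j i), fun s => ?_, ?_⟩
    · obtain ⟨S, hS, hS'⟩ := hv s
      exact ⟨S, hS, fun p hp => InF_borel hg (hS' p hp)⟩
    · exact plethAct_tprod' g v
  | zero =>
    rw [map_zero]
    exact Submodule.zero_mem _
  | add x y _ _ hx hy =>
    rw [map_add]
    exact Submodule.add_mem _ hx hy
  | smul c x _ hx =>
    rw [map_smul]
    exact Submodule.smul_mem _ _ hx

/-- `diag(t, .., t, 1, .., 1)` -/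
noncomputable def dgs (m s : ℕ) (t : ℂ) : Matrix (Fin m) (Fin m) ℂ :=
  Matrix.diagonal (fun i => if (i : ℕ) < s then t else 1)

lemma dgs_vec {m s : ℕ} (u : Fin m → ℂ) (t : ℂ) :
    Matrix.toLin' (dgs m s t) u = (fun i : Fin m => if (i : ℕ) < s then (0 : ℂ) else u i) +
      t • (fun i : Fin m => if (i : ℕ) < s then u i else 0) := by
  funext i
  rw [Matrix.toLin'_apply, dgs, Matrix.mulVec_diagonal]
  by_cases hi : (i : ℕ) < s
  · simp [hi]
  · simp [hi]

lemma dgs_InF {m s : ℕ} {u : Fin m → ℂ} (hu : InF s u) (t : ℂ) :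
    Matrix.toLin' (dgs m s t) u = t • u := by
  funext i
  rw [Matrix.toLin'_apply, dgs, Matrix.mulVec_diagonal]
  by_cases hi : (i : ℕ) < s
  · simp [hi]
  · rw [hu i (not_lt.1 hi)]
    simp [hu i (not_lt.1 hi)]

lemma dgs_mem {m s : ℕ} (u : Fin m → ℂ) :
    (fun t : ℂ => Matrix.toLin' (dgs m s t) u) ∈ PF (Fin m → ℂ) := by
  have h1 : (fun t : ℂ => Matrix.toLin' (dgs m s t) u) =
      (fun t : ℂ => t ^ 0 • (fun i : Fin m => if (i : ℕ) < s then (0 : ℂ) else u i)) +
        fun t : ℂ => t ^ 1 • (fun i : Fin m => if (i : ℕ) < s then u i else (0 : ℂ)) := by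
    funext t
    rw [dgs_vec, Pi.add_apply, pow_zero, one_smul, pow_one]
  rw [h1]
  exact Submodule.add_mem _ (mono_mem _ _) (mono_mem _ _)

lemma dgs_borel {m s : ℕ} {t : ℂ} (ht : t ≠ 0) : IsBorel (dgs m s t) := by
  refine ⟨fun i j hij => Matrix.diagonal_apply_ne _ (ne_of_gt hij), fun i => ?_⟩
  rw [dgs, Matrix.diagonal_apply_eq]
  by_cases hi : (i : ℕ) < s
  · simpa [hi] using ht
  · simp [hi]

/-- The sum of the first `s` entries. -/
def hd {m : ℕ} (lam : Fin m → ℕ) (s : ℕ) : ℕ := ∑ i : Fin m, if (i : ℕ) < s then lam i else 0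

lemma dgs_prod {m s : ℕ} (t : ℂ) (lam : Fin m → ℕ) :
    ∏ i, (dgs m s t) i i ^ lam i = t ^ hd lam s := by
  rw [hd, ← Finset.prod_pow_eq_pow_sum]
  refine Finset.prod_congr rfl (fun i _ => ?_)
  rw [dgs, Matrix.diagonal_apply_eq]
  by_cases hi : (i : ℕ) < s
  · simp [hi]
  · simp [hi]

lemma gen_div' {b a m s k0 : ℕ} (v : Fin b → Fin a → (Fin m → ℂ)) (S : Finset (Fin b × Fin a))
    (hS : k0 ≤ S.card) (hv : ∀ p ∈ S, InF s (v p.1 p.2)) :
    ∃ F ∈ PF (Sym[ℂ]^b (Sym[ℂ]^a (Fin m → ℂ))), ∀ t : ℂ,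
      (SymmetricPower.tprod ℂ (fun j => SymmetricPower.tprod ℂ
        (fun i => Matrix.toLin' (dgs m s t) (v j i))) : Sym[ℂ]^b (Sym[ℂ]^a (Fin m → ℂ))) =
        t ^ k0 • F t := by
  classical
  let f' : Fin b → Fin a → ℂ → (Fin m → ℂ) := fun j i t =>
    if (j, i) ∈ S then v j i else Matrix.toLin' (dgs m s t) (v j i)
  have hf' : ∀ j i, f' j i ∈ PF (Fin m → ℂ) := by
    intro j i
    by_cases h : (j, i) ∈ S
    · have h1 : f' j i = fun _ => v j i := by
        funext t
        simp only [f', h, if_true]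
      rw [h1]
      exact const_mem _
    · have h1 : f' j i = fun t : ℂ => Matrix.toLin' (dgs m s t) (v j i) := by
        funext t
        simp only [f', h, if_false]
      rw [h1]
      exact dgs_mem _
  have hff : ∀ j i (t : ℂ), Matrix.toLin' (dgs m s t) (v j i) =
      (if (j, i) ∈ S then t else 1) • f' j i t := by
    intro j i t
    by_cases h : (j, i) ∈ S
    · simp only [f', h, if_true]
      exact dgs_InF (hv _ h) t
    · simp only [f', h, if_false, one_smul]
  refine ⟨fun t => t ^ (S.card - k0) • (SymmetricPower.tprod ℂ (fun j => SymmetricPower.tprod ℂ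
      (fun i => f' j i t)) : Sym[ℂ]^b (Sym[ℂ]^a (Fin m → ℂ))), ?_, ?_⟩
  · apply mul_pow_mem
    exact multi_mem (SymmetricPower.tprod ℂ (ι := Fin b) (M := Sym[ℂ]^a (Fin m → ℂ)))
      (fun j t => SymmetricPower.tprod ℂ (fun i => f' j i t))
      (fun j => multi_mem (SymmetricPower.tprod ℂ (ι := Fin a) (M := Fin m → ℂ))
        (fun i t => f' j i t) (fun i => hf' j i))
  · intro t
    have h1 : ∀ j, (SymmetricPower.tprod ℂ (fun i => Matrix.toLin' (dgs m s t) (v j i)) :
        Sym[ℂ]^a (Fin m → ℂ)) =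
          (∏ i : Fin a, if (j, i) ∈ S then t else 1) • SymmetricPower.tprod ℂ
            (fun i => f' j i t) := by
      intro j
      have h2 := MultilinearMap.map_smul_univ (SymmetricPower.tprod ℂ (ι := Fin a)
        (M := Fin m → ℂ)) (fun i => if (j, i) ∈ S then t else 1) (fun i => f' j i t)
      rw [← h2]
      congr 1
      funext i
      exact hff j i t
    have h3 : (fun j => (SymmetricPower.tprod ℂ (fun i => Matrix.toLin' (dgs m s t) (v j i)) :
        Sym[ℂ]^a (Fin m → ℂ))) = fun j =>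
          (∏ i : Fin a, if (j, i) ∈ S then t else 1) • SymmetricPower.tprod ℂ
            (fun i => f' j i t) := funext h1
    rw [h3]
    have h4 := MultilinearMap.map_smul_univ (SymmetricPower.tprod ℂ (ι := Fin b)
        (M := Sym[ℂ]^a (Fin m → ℂ))) (fun j => ∏ i : Fin a, if (j, i) ∈ S then t else 1)
        (fun j => SymmetricPower.tprod ℂ (fun i => f' j i t))
    rw [h4, smul_smul, ← pow_add, Nat.add_sub_cancel' hS]
    congr 1
    rw [← Finset.prod_product', Finset.univ_product_univ, Finset.prod_ite_mem,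
      Finset.univ_inter, Finset.prod_const]

lemma Emu_div {b a m : ℕ} {h : ℕ → ℕ} (s : ℕ) {x : Pleth b a m} (hx : x ∈ Emu b a m h) :
    ∃ F ∈ PF (Pleth b a m), ∀ t : ℂ, plethAct b a m (dgs m s t) x = t ^ h s • F t := by
  induction hx using Submodule.span_induction with
  | mem x hm =>
    obtain ⟨v, hv, rfl⟩ := hm
    obtain ⟨S, hS, hS'⟩ := hv s
    obtain ⟨F, hF, h1⟩ := gen_div' v S hS hS'
    exact ⟨F, hF, fun t => (plethAct_tprod' (dgs m s t) v).trans (h1 t)⟩
  | zero => exact ⟨0, Submodule.zero_mem _, fun t => by rw [map_zero, Pi.zero_apply, smul_zero]⟩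
  | add x y _ _ hx hy =>
    obtain ⟨F, hF, h1⟩ := hx
    obtain ⟨G, hG, h2⟩ := hy
    exact ⟨F + G, Submodule.add_mem _ hF hG, fun t => by
      rw [map_add, h1, h2, Pi.add_apply, smul_add]⟩
  | smul c x _ hx =>
    obtain ⟨F, hF, h1⟩ := hx
    exact ⟨c • F, Submodule.smul_mem _ _ hF, fun t => by
      rw [map_smul, h1, Pi.smul_apply, smul_comm]⟩

theorem Emu_weight {b a m : ℕ} {h : ℕ → ℕ} {lam : Fin m → ℕ} {x : Pleth b a m}
    (hx : x ∈ Emu b a m h) (hw : x ∈ hwSpace lam (plethAct b a m)) (h0 : x ≠ 0) (s : ℕ) :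
    h s ≤ hd lam s := by
  by_contra hlt
  rw [not_le] at hlt
  apply h0
  obtain ⟨F, hF, h1⟩ := Emu_div s hx
  refine eq_zero_of_const (mul_pow_mem hF (h s - hd lam s)) x (fun t ht => ?_) ?_
  · have h2 := hw (dgs m s t) (dgs_borel ht)
    rw [h1 t, dgs_prod] at h2
    have h3 : t ^ hd lam s • (t ^ (h s - hd lam s) • F t) = t ^ hd lam s • x := by
      rw [smul_smul, ← pow_add, Nat.add_sub_cancel' hlt.le]
      exact h2
    have h4 := congrArg (fun y => (t ^ hd lam s)⁻¹ • y) h3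
    simpa only [smul_smul, ← mul_assoc, inv_mul_cancel₀ (pow_ne_zero _ ht), one_smul, one_mul]
      using h4
  · rw [zero_pow (Nat.sub_ne_zero_of_lt hlt), zero_smul]

/-- The exponent vector of a word. -/
noncomputable def cont {a m : ℕ} (w : Fin a → Fin m) : Fin m →₀ ℕ := ∑ l, Finsupp.single (w l) 1

lemma cont_apply {a m : ℕ} (w : Fin a → Fin m) (i : Fin m) :
    cont w i = (Finset.univ.filter (fun l => w l = i)).card := by
  rw [cont, Finsupp.finsetSum_apply, Finset.card_filter]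
  exact Finset.sum_congr rfl (fun l _ => Finsupp.single_apply)

lemma card_le_Emu {b a m : ℕ} {h : ℕ → ℕ} {ι : Type} [Fintype ι]
    (c : ι → Fin b → Fin a → Fin m)
    (hinj : Function.Injective (fun f => ∑ j, Finsupp.single (cont (c f j)) 1 :
      ι → ((Fin m →₀ ℕ) →₀ ℕ)))
    (hc : ∀ f s, h s ≤ (Finset.univ.filter
      (fun p : Fin b × Fin a => ((c f p.1 p.2 : Fin m) : ℕ) < s)).card) :
    Fintype.card ι ≤ Module.finrank ℂ (Emu b a m h) := by
  classical
  let x : ι → Pleth b a m :=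
    fun f => SymmetricPower.tprod ℂ (fun j => SymmetricPower.tprod ℂ
      (fun l => (Pi.single (c f j l) 1 : Fin m → ℂ)))
  have hx : ∀ f, x f ∈ Emu b a m h := by
    intro f
    apply Submodule.subset_span
    refine ⟨fun j l => Pi.single (c f j l) 1, fun s => ⟨_, hc f s, ?_⟩, rfl⟩
    intro p hp i hi
    have h1 : ((c f p.1 p.2 : Fin m) : ℕ) < s := (Finset.mem_filter.1 hp).2
    apply Pi.single_eq_of_ne
    intro h2
    rw [h2] at hi
    omega
  have hli : LinearIndependent ℂ (fun f => (⟨x f, hx f⟩ : Emu b a m h)) := by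
    apply LinearIndependent.of_comp (sepX b a m ∘ₗ Submodule.subtype _)
    have h1 : (⇑(sepX b a m ∘ₗ Submodule.subtype _) ∘ fun f => (⟨x f, hx f⟩ :
        Emu b a m h)) =
        (basisMonomials (Fin m →₀ ℕ) ℂ) ∘ (fun f => ∑ j, Finsupp.single (cont (c f j)) 1) := by
      funext f
      rw [coe_basisMonomials]
      exact sepX_tprod (c f)
    rw [h1]
    exact (basisMonomials (Fin m →₀ ℕ) ℂ).linearIndependent.comp _ hinj
  have := finite_sub (Emu b a m h)
  exact hli.fintype_card_le_finrank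

/-- **(W3), family form.** -/
theorem w3_family {b a m : ℕ} (mu : Fin m → ℕ) {ι : Type} [Fintype ι]
    (c : ι → Fin b → Fin a → Fin m)
    (hinj : Function.Injective (fun f => ∑ j, Finsupp.single (cont (c f j)) 1 :
      ι → ((Fin m →₀ ℕ) →₀ ℕ)))
    (hc : ∀ f i, ∑ j, cont (c f j) i = mu i) (hne : Nonempty ι) :
    ∃ th : Fin m → ℕ, (∀ s, hd mu s ≤ hd th s) ∧ ∑ i, th i = b * a ∧
      Fintype.card ι ≤ (b * a + 1) ^ (m * m + m) * plethMult b a m th := by
  classical
  have h1 : Fintype.card ι ≤ Module.finrank ℂ (Emu b a m (hd mu)) := by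
    refine card_le_Emu c hinj (fun f s => ?_)
    rw [hd, Finset.card_filter, Fintype.sum_prod_type]
    have h2 : ∀ i : Fin m, (if (i : ℕ) < s then mu i else 0) =
        ∑ j : Fin b, ∑ l : Fin a, if c f j l = i ∧ (i : ℕ) < s then 1 else 0 := by
      intro i
      by_cases hi : (i : ℕ) < s
      · rw [if_pos hi, ← hc f i]
        refine Finset.sum_congr rfl (fun j _ => ?_)
        rw [cont_apply, Finset.card_filter]
        refine Finset.sum_congr rfl (fun l _ => ?_)
        simp [hi]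
      · rw [if_neg hi]
        symm
        refine Finset.sum_eq_zero (fun j _ => Finset.sum_eq_zero (fun l _ => ?_))
        simp [hi]
    rw [Finset.sum_congr rfl (fun i _ => h2 i), Finset.sum_comm]
    refine le_of_eq (Finset.sum_congr rfl (fun j _ => ?_))
    rw [Finset.sum_comm]
    refine Finset.sum_congr rfl (fun l _ => ?_)
    rw [Finset.sum_eq_single (c f j l)]
    · by_cases hi : ((c f j l : Fin m) : ℕ) < s
      · simp [hi]
      · simp [hi]
    · intro i _ hi
      rw [if_neg (fun h => hi h.1.symm)]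
    · intro h
      exact absurd (Finset.mem_univ _) h
  obtain ⟨th, hth⟩ := rich (Emu b a m (hd mu)) Emu_stable
  have hpos : 0 < Fintype.card ι := Fintype.card_pos
  have hF : 0 < Module.finrank ℂ ↥(Emu b a m (hd mu) ⊓ hwSpace th (plethAct b a m)) := by
    rcases Nat.eq_zero_or_pos
      (Module.finrank ℂ ↥(Emu b a m (hd mu) ⊓ hwSpace th (plethAct b a m))) with h0 | h0
    · rw [h0, mul_zero] at hth
      omega
    · exact h0
  have hne' : Emu b a m (hd mu) ⊓ hwSpace th (plethAct b a m) ≠ ⊥ := by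
    intro h
    rw [h, finrank_bot] at hF
    exact lt_irrefl _ hF
  obtain ⟨x, hx, hx0⟩ := Submodule.exists_mem_ne_zero_of_ne_bot hne'
  refine ⟨th, fun s => Emu_weight hx.1 hx.2 hx0 s, hw_sum hx.2 hx0, ?_⟩
  refine h1.trans (hth.trans (Nat.mul_le_mul_left _ ?_))
  exact finrank_le_of_inj (LinearMap.id : Pleth b a m →ₗ[ℂ] Pleth b a m) _ _
    (fun x hx => hx.2) (fun x _ h => h)

end Vale.Agent.P181.Z
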